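import Vale.Agent.P352Z.P352X.TPD.Main

open Vale.Agent.P352G

/-!
# P352X, block TPD: conformal invariance without time ordered products as a hypothesis
-/

set_option linter.all false

namespace Vale.Agent.P352X

open Vale.Agent.P352 Vale.Agent.P352.GF Vale.Agent.P352.BW Vale.Agent.P352.H246
open Vale.Agent.P352.H496 Vale.Agent.P352.H755 Vale.Agent.P352.H15
open UniformSpace (Completion)

variable {D : Type*} [NormedAddCommGroup D] [InnerProductSpace ℂ D] [GrD D]

theorem tp_ofZ (Q : Theory D) (T : Ix → Ix → Fld D) (hT : Q.IsStress T) (A : (V → V) → D → D)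
    (hA : ND.PCh Q T A) (hG : TfGenZ Q) (N : Set V → VonNeumannAlgebra (Completion D))
    (hN : LNmZ Q A N) (hU : UVac Q) : ∃ wp wm t, TP Q T wp wm t := by
  obtain ⟨c, rfl, rfl⟩ := ctx0Z Q T hT A hA hG N hN hU
  exact tp_thmZ c

theorem tp_ofZ' (Q : Theory D) (T : Ix → Ix → Fld D) (hT : Q.IsStress T) (A : (V → V) → D → D)
    (hA : ND.PCh Q T A) (hG : TfGenZ Q) (N : Set V → VonNeumannAlgebra (Completion D))
    (hN : LNmZ Q A N) (hU : UVac Q) :
    ∃ wp wm t, TP Q T wp wm t ∧ TPD.EvW wp ∧ TPD.EvW wm := by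
  obtain ⟨c, rfl, rfl⟩ := ctx0Z Q T hT A hA hG N hN hU
  exact tp_thmZ' c

end Vale.Agent.P352X
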