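import Vale.Agent.P352X.TPD.Defs
import Vale.Agent.P352Z.P352X.R.GRP.C
import Vale.Agent.P352Z.P352X.R.KD.D
import Vale.Agent.P352G2.Kit

open Vale.Agent.P352G

/-!
# P352X, block TPD: vocabulary (see notes/P352/tpd.md)
-/

set_option linter.all false

open MeasureTheory Filter Topology
open scoped SchwartzMap ComplexConjugate ENNReal ContDiff

namespace Vale.Agent.P352X.TPD

open Vale.Agent.P352 Vale.Agent.P352.GF Vale.Agent.P352.BW Vale.Agent.P352.H246
open Vale.Agent.P352.H496 Vale.Agent.P352.H755 Vale.Agent.P352.H15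
open UniformSpace (Completion)
open Complex (I)

noncomputable section

/-! ## tensors -/

/-! ## matrices -/

/-! ## test functions -/

/-! ## vector valued distributions -/

variable {D : Type*} [NormedAddCommGroup D] [InnerProductSpace ℂ D] [GrD D]

/-- distributions with even values -/
def EvT (x : TT D) : Prop := ∀ f, Gm D (x f) = x f

/-- two point distributions with even values -/
def EvW (w : WW D) : Prop := ∀ I J F, Gm D (w I J F) = w I J F

theorem EvT.zero : EvT (0 : TT D) := fun _ => map_zero _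

theorem EvT.add {x y : TT D} (h : EvT x) (h' : EvT y) : EvT (x + y) := fun f => by
  rw [ContinuousLinearMap.add_apply, map_add, h, h']

theorem EvT.sub {x y : TT D} (h : EvT x) (h' : EvT y) : EvT (x - y) := fun f => by
  rw [ContinuousLinearMap.sub_apply, map_sub, h, h']

theorem EvT.neg {x : TT D} (h : EvT x) : EvT (-x) := fun f => by
  rw [ContinuousLinearMap.neg_apply, map_neg, h]

theorem EvT.smul {x : TT D} (a : ℝ) (h : EvT x) : EvT (a • x) := fun f => by
  rw [ContinuousLinearMap.smul_apply, ContinuousLinearMap.map_smul_of_tower, h]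

theorem EvT.csmul {x : TT D} (a : ℂ) (h : EvT x) : EvT (a • x) := fun f => by
  rw [ContinuousLinearMap.smul_apply, map_smul, h]

theorem EvT.comp {x : TT D} (h : EvT x) (A : Sch →L[ℂ] Sch) : EvT (x ∘L A) := fun f => h (A f)

theorem EvT.sum {ι : Type*} (s : Finset ι) {x : ι → TT D} (h : ∀ i ∈ s, EvT (x i)) :
    EvT (∑ i ∈ s, x i) := fun f => by
  rw [ContinuousLinearMap.sum_apply, map_sum]
  exact Finset.sum_congr rfl fun i hi => h i hi f

/-- pairs of even vectors only see even operators -/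
theorem pr_ev (g : G0 D) {Ω ψ ψ' : Completion D} {M M' : VonNeumannAlgebra (Completion D)}
    (hΩ : Gm D Ω = Ω) (h1 : Gm D ψ = ψ) (h2 : Gm D ψ' = ψ') (h : Pr M Ω ψ ψ')
    (hM : ∀ Z ∈ M'.commutant, evp' Z ∈ M.commutant) : Pr M' Ω ψ ψ' := fun Z hZ => by
  have a := h _ (hM Z hZ)
  have o1 : Gm D (odp Z Ω) = -odp Z Ω := by rw [g.od_apply (g.od_odp Z), hΩ]
  have o2 : Gm D (star (odp Z) Ω) = -star (odp Z) Ω := by
    rw [g.od_apply (g.od_star (g.od_odp Z)), hΩ]
  rw [← evp_add_odp Z, star_add, ContinuousLinearMap.add_apply, ContinuousLinearMap.add_apply,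
    inner_add_left, inner_add_right, a, g.perp h2 o1, inner_eq_zero_symm.1 (g.perp h1 o2)]

variable (c : CtxZ D)

/-- pairs in opposite wedges, the second one even -/
theorem pair_ev {c : CtxZ D} (j : JCZ c) {a b y : V} (ha : IsNull a) (hb : IsNull b)
    (h : 0 < mdot a b) {ψ ψ' φ φ' : Completion D} (p : Pr (c.N (Wdg a b y)) c.Om ψ ψ')
    (q : Pr (c.N (Wdg b a y)) c.Om φ φ') (e : Gm D φ = φ) (e' : Gm D φ' = φ') :
    inner ℂ ψ' φ = inner ℂ φ' ψ := by
  have g := c.hN.g0
  have v := c.hN.toRepZ.gv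
  refine p.pair (pr_ev g v e e' q fun Z hZ => ?_) ?_
  · rw [VonNeumannAlgebra.commutant_commutant] at hZ
    exact (j.dualE b a y hb ha (by rwa [H755.mdot_comm]) _ (g.ev_evp Z)).2 (c.hN.evp_mem hZ)
  · refine (c.hN.cyc (wdg_open b a y) (wdg_nonempty hb ha (by rwa [H755.mdot_comm]) y)).mono ?_
    rintro _ ⟨X, hX, rfl⟩
    exact ⟨tw X, (j.dual a b y ha hb h _).2 (by rwa [g.tw_tw]), g.tw_apply X v⟩

/-- the action of the linear similitudes on distributions -/
def actZ (s : ℝ) (L : Ix → V) : TT D →ₗ[ℝ] TT D where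
  toFun x := Ug c.Q s L 0 ∘L x ∘L pS s L
  map_add' x y := by ext f; simp
  map_smul' a x := by ext f; simp

lemma act_applyZ (s : ℝ) (L : Ix → V) (x : TT D) (f : Sch) :
    actZ c s L x f = Ug c.Q s L 0 (x (pS s L f)) := rfl

/-- the action on families -/
def gaZ (s : ℝ) (L : Ix → V) : Fam D →ₗ[ℝ] Fam D where
  toFun x η := actZ c s L (x (η.pull s L))
  map_add' x y := funext fun η => map_add _ _ _
  map_smul' a x := funext fun η => map_smul (actZ c s L) a _

lemma ga_applyZ (s : ℝ) (L : Ix → V) (x : Fam D) (η : EC) :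
    gaZ c s L x η = actZ c s L (x (η.pull s L)) := rfl

/-- the PCT operator -/
def ThZ : Completion D →L⋆[ℂ] Completion D :=
  c.J.toLinearIsometry.toContinuousLinearMap.comp (Ug c.Q 1 r1 0)

lemma Th_applyZ (z : Completion D) : ThZ c z = c.J (Ug c.Q 1 r1 0 z) := rfl

/-- the projection orthogonal to the vacuum -/
def PpZ : Completion D →L[ℂ] Completion D := 1 - (innerSL ℂ c.Om).smulRight c.Om

/-- translation covariant and orthogonal to the vacuum -/
structure TCZ (x : TT D) : Prop where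
  tra : ∀ a f, Ut c.Q a (x f) = x (ST.tsl a f)
  perp : ∀ f, inner ℂ c.Om (x f) = 0
  ev : EvT x

/-- wedge local up to the set `K`, with the partner `σ Θ x (f (-z))` -/
def LocZ (σ : ℝ) (K : Set V) (x : TT D) : Prop := ∀ a b y (f : Sch), IsNull a → IsNull b →
  0 < mdot a b → HasCompactSupport f → tsupport f ⊆ Wdg a b y →
  (∀ z ∈ tsupport f, ∀ u ∈ K, z + u ∈ Wdg a b y) →
  Pr (c.N (Wdg a b y)) c.Om (x f) (σ • ThZ c (x (ng f)))

/-- local, of scaling dimension `4 - k` -/
structure HomZ (σ : ℝ) (k : ℕ) (y : TT D) : Prop where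
  tc : TCZ c y
  loc : LocZ c σ ∅ y
  hom : ∀ s : ℝ, 0 < s → s ^ k • actZ c s GF.one y = y

/-- the time ordered product away from the diagonal, orthogonal to the vacuum -/
structure SrcZ (w : WW D) : Prop where
  perp : ∀ I J F, inner ℂ c.Om (w I J F) = 0
  ind1 : ∀ I J, w I J = w I.swap J
  ind2 : ∀ I J, w I J = w I J.swap
  cov : ∀ s L a I J (F G : S2), 0 < s → IsLor L → OffD F →
    (∀ x y, G (x, y) = F (sim s L a x, sim s L a y)) →
    w I J F = ∑ K, ∑ M, (L2 L K I * L2 L M J) • Ug c.Q s L a (w K M G)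
  c1 : ∀ n J G, OffD G → dv1 w n J G = 0
  c2 : ∀ I n G, OffD G → ∑ m, w I (m, n) (LineDeriv.lineDerivOp ((0, bas m 1) : V × V) G) = 0
  loc : ∀ a b y I J (G G' : S2), IsNull a → IsNull b → 0 < mdot a b → OffD G →
    HasCompactSupport G → tsupport G ⊆ Wdg a b y ×ˢ Wdg a b y →
    (∀ x z, G' (x, z) = G (-x, -z)) → Pr (c.N (Wdg a b y)) c.Om (w I J G) (ThZ c (w I J G'))
  ev : EvW w

/-- `x η` is a value for `w (η (x - y) S (x - y) f y)` -/
structure DatZ (w : WW D) (σ : ℝ) (S : V → Tn (Fin 4)) (x : Fam D) : Prop where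
  tc : ∀ η, TCZ c (x η)
  loc : ∀ η : EC, LocZ c σ (tsupport η.1) (x η)
  coc : ∀ η η' : EC, x η - x η' = psi w (cs (η.1 - η'.1) S)

/-- dilation covariant data for polynomials of degree `k` -/
def HDZ (w : WW D) {k : ℕ} (h : Tn (Fin 4 ⊕ Fin k)) (x : Fam D) : Prop :=
  DatZ c w ((-1) ^ k) (pol h) x ∧ ∀ s : ℝ, 0 < s → s ^ k • gaZ c s GF.one x = x

/-- covariant data for all polynomials of degree `k` -/
def ExtZ (w : WW D) (k : ℕ) : Prop := ∃ B : Tn (Fin 4 ⊕ Fin k) →ₗ[ℝ] Fam D,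
  (∀ h, DatZ c w ((-1) ^ k) (pol h) (B h)) ∧
  ∀ (s : ℝ) L h, 0 < s → IsLor L → s ^ k • gaZ c s L (B (pb L h)) = B h

/-- a tempered extension of the time ordered product, with no condition on the diagonal -/
structure PreZ (w : WW D) : Prop where
  fac : ∀ I J (f g : Sch) (F : S2), (∀ x y, F (x, y) = f x * g y) →
    Late (tsupport f) (tsupport g) →
    w I J F = ((c.T I.1 I.2 (ev f) (c.T J.1 J.2 (ev g) c.Q.vac) : D) : Completion D)
  swap : ∀ I J (F G : S2), (∀ x y, G (x, y) = F (y, x)) → w I J F = w J I G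
  ind : ∀ I J, w I J = w I.swap J
  cov : ∀ s L a I J (F G : S2), 0 < s → IsLor L → OffD F →
    (∀ x y, G (x, y) = F (sim s L a x, sim s L a y)) →
    w I J F = ∑ K, ∑ M, (L2 L K I * L2 L M J) • Ug c.Q s L a (w K M G)
  c1 : ∀ n J G, OffD G → dv1 w n J G = 0
  loc : ∀ a b y I J (G G' : S2), IsNull a → IsNull b → 0 < mdot a b → OffD G →
    HasCompactSupport G → tsupport G ⊆ Wdg a b y ×ˢ Wdg a b y →
    (∀ x z, G' (x, z) = G (-x, -z)) → Pr (c.N (Wdg a b y)) c.Om (w I J G) (ThZ c (w I J G'))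
  ev : EvW w

/-- wedge locality of a two point distribution, including the diagonal -/
def LocWZ (w : WW D) : Prop := ∀ a b y I J (G G' : S2), IsNull a → IsNull b → 0 < mdot a b →
  HasCompactSupport G → tsupport G ⊆ Wdg a b y ×ˢ Wdg a b y → (∀ x z, G' (x, z) = G (-x, -z)) →
  Pr (c.N (Wdg a b y)) c.Om (PpZ c (w I J G)) (ThZ c (PpZ c (w I J G')))

/-- locality of the pair `wp`, `wm` relative to `T` -/
def CmpZ (wp wm : WW D) : Prop := ∀ x y : V, mdot (x - y) (x - y) < 0 → ∃ d > 0,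
  ∀ (I J K : I2) (f : Sch) (G G' : S2), tsupport f ⊆ Metric.ball x d →
    tsupport G ⊆ Metric.ball (y, y) d → (∀ z, G' z = star (G z)) →
    inner ℂ ((c.T I.1 I.2 (bar (ev f)) c.Q.vac : D) : Completion D) (wp J K G) =
      inner ℂ (wm J K G') ((c.T I.1 I.2 (ev f) c.Q.vac : D) : Completion D)

end

end Vale.Agent.P352X.TPD
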