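import Vale.Agent.P352X.TPD.Spec
import Vale.Agent.P352Z.P352X.TPD.Defs

open Vale.Agent.P352G

/-!
# P352X, block TPD: the rows (see notes/P352/tpd.md)
-/

set_option linter.all false

open MeasureTheory Filter Topology
open scoped SchwartzMap ComplexConjugate ENNReal ContDiff

namespace Vale.Agent.P352X.TPD

open Vale.Agent.P352 Vale.Agent.P352.GF Vale.Agent.P352.BW Vale.Agent.P352.H246
open Vale.Agent.P352.H496 Vale.Agent.P352.H755 Vale.Agent.P352.H15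
open UniformSpace (Completion)
open Complex (I)

noncomputable section

/-! ## pure rows -/

variable {D : Type*} [NormedAddCommGroup D] [InnerProductSpace ℂ D] [GrD D] (c : CtxZ D)

/-! ## tools -/

/-- row BA: the calculus of `Th`, `act`, `TC`, `Loc` -/
structure BAZ : Prop where
  th_ug : ∀ s L a z, 0 < s → IsLor L → (Gm D z = z ∨ L = GF.one) →
    ThZ c (Ug c.Q s L a z) = Ug c.Q s L (-a) (ThZ c z)
  th_om : ThZ c c.Om = c.Om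
  th_th : ∀ z, Gm D z = z → ThZ c (ThZ c z) = z
  th_gam : ∀ z, Gm D (ThZ c z) = ThZ c (Gm D z)
  pp_gam : ∀ z, Gm D (PpZ c z) = PpZ c (Gm D z)
  act_ev : ∀ s L x, EvT x → EvT (actZ c s L x)
  j_th : ∀ z, c.J (ThZ c z) = Ug c.Q 1 r1 0 z
  th_inner : ∀ v w, inner ℂ (ThZ c v) (ThZ c w) = inner ℂ w v
  th_phi : ∀ F z, SN.Bd F → ThZ c (c.bt.Phi F z) = c.bt.Phi (fun p => conj (F p)) (ThZ c z)
  th_two : ∀ (K M : I2) (f g : Sch),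
    ThZ c (c.T K.1 K.2 (ev f) (c.T M.1 M.2 (ev g) c.Q.vac) : D) =
      (c.T K.1 K.2 (bar (ev (ng f))) (c.T M.1 M.2 (bar (ev (ng g))) c.Q.vac) : D)
  pp : ∀ z, inner ℂ c.Om (PpZ c z) = 0 ∧ ThZ c (PpZ c z) = PpZ c (ThZ c z) ∧
    (∃ κ : ℂ, z = PpZ c z + κ • c.Om) ∧ (inner ℂ c.Om z = 0 → PpZ c z = z) ∧
    ∀ s L a, Ug c.Q s L a (PpZ c z) = PpZ c (Ug c.Q s L a z)
  pp_pr : ∀ O ψ ψ', Pr (c.N O) c.Om ψ ψ' → Pr (c.N O) c.Om (PpZ c ψ) (PpZ c ψ')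
  mul : ∀ s s' L L' x, 0 < s → 0 < s' → IsLor L → IsLor L' → (EvT x ∨ OkL L L') →
    actZ c s L (actZ c s' L' x) = actZ c (s * s') (T.cm L' L) x
  one : ∀ x, actZ c 1 GF.one x = x
  gmul : ∀ s s' L L' x, 0 < s → 0 < s' → IsLor L → IsLor L' → ((∀ η, EvT (x η)) ∨ OkL L L') →
    gaZ c s L (gaZ c s' L' x) = gaZ c (s * s') (T.cm L' L) x
  gone : ∀ x, gaZ c 1 GF.one x = x
  nrm : ∀ s L x f, ‖actZ c s L x f‖ = ‖x (pS s L f)‖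
  der : ∀ (s : ℝ) L x v, 0 < s → IsLor L →
    actZ c s L (x ∘L KDa.dS v) = s • (actZ c s L x ∘L KDa.dS (sim 1 L 0 v))
  cont : ∀ (ι : Type) (l : Filter ι) (L : ι → Ix → V) L0 x f, (∀ i, IsLor (L i)) → IsLor L0 →
    Tendsto L l (𝓝 L0) → EvT x → Tendsto (fun i => actZ c 1 (L i) x f) l (𝓝 (actZ c 1 L0 x f))
  gro : ∀ x : TT D, ∃ N : ℕ, ∀ f, ∃ C : ℝ, ∀ t, ‖actZ c 1 (Lb t) x f‖ ≤ C * Real.exp (N * |t|)
  tc0 : TCZ c 0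
  tc_add : ∀ x y, TCZ c x → TCZ c y → TCZ c (x + y)
  tc_smul : ∀ (a : ℝ) x, TCZ c x → TCZ c (a • x)
  tc_act : ∀ s L x, 0 < s → IsLor L → TCZ c x → TCZ c (actZ c s L x)
  tc_der : ∀ v x, TCZ c x → TCZ c (x ∘L KDa.dS v)
  tc_gn : ∀ v x f, TCZ c x → Gn (fun t => Ut c.Q (t • v)) (x f) (I • x (KDa.dS v f))
  tc_psi : ∀ v x f, TCZ c x → c.bt.Dom (fun p => (mdot p v : ℝ)) (x f) ∧
    x (KDa.dS v f) = -I • c.bt.Psi (fun p => (mdot p v : ℝ)) (x f)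
  tc_rel : ∀ x f g, TCZ c x → c.bt.Phi (ft (ev g)) (x f) = c.bt.Phi (ft (ev f)) (x g)
  loc0 : ∀ σ K, LocZ c σ K 0
  loc_add : ∀ σ K x y, LocZ c σ K x → LocZ c σ K y → LocZ c σ K (x + y)
  loc_smul : ∀ σ K (a : ℝ) x, LocZ c σ K x → LocZ c σ K (a • x)
  loc_mono : ∀ σ K K' x, K ⊆ K' → LocZ c σ K x → LocZ c σ K' x
  loc_act : ∀ σ K s L x, 0 < s → IsLor L → EvT x → LocZ c σ K x →
    LocZ c σ (sim s L 0 '' K) (actZ c s L x)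
  loc_der : ∀ σ K v x, LocZ c σ K x → LocZ c (-σ) K (x ∘L KDa.dS v)
  loc_small : ∀ σ K x, (∀ ε : ℝ, 0 < ε → LocZ c σ (K ∪ Metric.ball 0 ε) x) → LocZ c σ K x
  loc_lim : ∀ σ K (x : ℕ → TT D) y, (∀ f, Tendsto (fun n => x n f) atTop (𝓝 (y f))) →
    (∀ ε : ℝ, 0 < ε → ∀ᶠ n in atTop, LocZ c σ (K ∪ Metric.ball 0 ε) (x n)) → LocZ c σ K y
  hom0 : ∀ σ k, HomZ c σ k 0
  hom_add : ∀ σ k x y, HomZ c σ k x → HomZ c σ k y → HomZ c σ k (x + y)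
  hom_smul : ∀ σ k (a : ℝ) x, HomZ c σ k x → HomZ c σ k (a • x)
  hom_act : ∀ σ k L x, IsLor L → HomZ c σ k x → HomZ c σ k (actZ c 1 L x)

/-- row BP: the calculus of `psi` and `Dat` -/
structure BPZ (w : WW D) : Prop where
  add : ∀ φ φ', Ok φ → Ok φ' → psi w (φ + φ') = psi w φ + psi w φ'
  smul : ∀ (a : ℝ) φ, Ok φ → psi w (a • φ) = a • psi w φ
  tc : ∀ φ, Ok φ → TCZ c (psi w φ)
  loc : ∀ σ φ, σ * σ = 1 → Ok φ → (∀ u, φ (-u) = σ • φ u) → LocZ c σ (tsupport φ) (psi w φ)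
  cov : ∀ s L φ, 0 < s → IsLor L → Ok φ → actZ c s L (psi w (pf s L φ)) = psi w φ
  sy : ∀ φ φ', Ok φ → Ok φ' → (∀ u, sy (φ u) = sy (φ' u)) → psi w φ = psi w φ'
  c1 : ∀ χ X, Tst χ → (0 : V) ∉ tsupport χ → ContDiff ℝ ∞ X →
    psi w (b1 χ X) + psi w (cs χ (d1 X)) = 0
  c3 : ∀ χ Y, Tst χ → (0 : V) ∉ tsupport χ → ContDiff ℝ ∞ Y →
    psi w (b3 χ Y) + psi w (cs χ (d3 Y)) = ∑ r, psi w (cs χ (i3 r Y)) ∘L KDa.dS (bas r 1)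
  dzero : ∀ σ, DatZ c w σ 0 0
  dadd : ∀ σ S S' x x', ContDiff ℝ ∞ S → ContDiff ℝ ∞ S' → DatZ c w σ S x → DatZ c w σ S' x' →
    DatZ c w σ (S + S') (x + x')
  dsmul : ∀ σ (a : ℝ) S x, ContDiff ℝ ∞ S → DatZ c w σ S x → DatZ c w σ (a • S) (a • x)
  dsy : ∀ σ S S' x, ContDiff ℝ ∞ S → ContDiff ℝ ∞ S' → (∀ u, TPD.sy (S u) = TPD.sy (S' u)) →
    DatZ c w σ S x → DatZ c w σ S' x
  dact : ∀ σ s L S x, 0 < s → IsLor L → ContDiff ℝ ∞ S → DatZ c w σ (pf s L S) x →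
    DatZ c w σ S (gaZ c s L x)
  dhom : ∀ σ (k : ℕ) x, DatZ c w σ 0 x → (∀ s : ℝ, 0 < s → s ^ k • gaZ c s GF.one x = x) →
    ∃ y, HomZ c σ k y ∧ ∀ η, x η = y
  dcont : ∀ σ S x (ι : Type) (l : Filter ι) (L : ι → Ix → V) L0 η f, ContDiff ℝ ∞ S →
    DatZ c w σ S x → (∀ i, IsLor (L i)) → IsLor L0 → Tendsto L l (𝓝 L0) →
    Tendsto (fun i => gaZ c 1 (L i) x η f) l (𝓝 (gaZ c 1 L0 x η f))
  g1 : ∀ σ X, σ * σ = 1 → ContDiff ℝ ∞ X → (∀ u, X (-u) = -σ • X u) →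
    DatZ c w σ (d1 X) (g1 w X) ∧
    (∀ s L, 0 < s → IsLor L → gaZ c s L (g1 w (pf s L X)) = s • g1 w X) ∧
    ∀ X' (a : ℝ), ContDiff ℝ ∞ X' → g1 w (X + X') = g1 w X + g1 w X' ∧ g1 w (a • X) = a • g1 w X
  g3 : ∀ σ Y, σ * σ = 1 → ContDiff ℝ ∞ Y → (∀ u, Y (-u) = -σ • Y u) →
    (∀ η : EC, TCZ c (psi w (b3 η.1 Y)) ∧ LocZ c σ (tsupport η.1) (psi w (b3 η.1 Y))) ∧
    (∀ η η' : EC, psi w (b3 η.1 Y) - psi w (b3 η'.1 Y) + psi w (cs (η.1 - η'.1) (d3 Y)) =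
      ∑ r, psi w (cs (η.1 - η'.1) (i3 r Y)) ∘L KDa.dS (bas r 1)) ∧
    (∀ s L, 0 < s → IsLor L → gaZ c s L (fun η => psi w (b3 η.1 (pf s L Y))) =
      s • fun η : EC => psi w (b3 η.1 Y)) ∧
    ∀ Y' (a : ℝ) (η : EC), ContDiff ℝ ∞ Y' →
      psi w (b3 η.1 (Y + Y')) = psi w (b3 η.1 Y) + psi w (b3 η.1 Y') ∧
      psi w (b3 η.1 (a • Y)) = a • psi w (b3 η.1 Y)

/-- the tools -/
structure B0Z : Prop extends T3Z c where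
  ten : TEN
  exp : EXP
  ba : BAZ c
  bp : ∀ w, SrcZ c w → BPZ c w

/-! ## infrared bounds -/

/-- row RHO: the two point measure -/
def RHOZ : Prop := ∀ x, TCZ c x → ∃ ρ : Measure V, IsLocallyFiniteMeasure ρ ∧
  (∀ f : Sch, c.nu (x f) = ρ.withDensity fun p => ENNReal.ofReal (‖ft (ev f) p‖ ^ 2)) ∧
  (∀ᵐ p ∂ρ, 0 < p o ∧ 0 ≤ mu p) ∧
  ∃ M : ℕ, ∫⁻ p, ENNReal.ofReal (((1 + ‖p‖) ^ M)⁻¹) ∂ρ < ⊤

/-- row IRQ: small transverse momenta -/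
def IRQZ : Prop := ∀ ψ ψ' (R : ℝ), inner ℂ c.Om ψ = 0 → (∀ (t : ℝ) (x : R2), |t| ≤ 1 → R ≤ ‖x‖ →
    inner ℂ ψ (Ut c.Q (bas o t + tv x) ψ) = inner ℂ (Ut c.Q (bas o t + tv x) ψ') ψ') →
  ∃ C : ℝ, ∀ s, 0 < s → c.nu ψ {p | ‖tx p‖ ≤ s ∧ p o ≤ 1} ≤ ENNReal.ofReal (C * s)

/-- row IRG: the commutator function of a local distribution -/
def IRGZ : Prop := ∀ σ K x (f : Sch), TCZ c x → LocZ c σ K x → Bornology.IsBounded K →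
  HasCompactSupport f → ∃ R : ℝ, ∀ (t : ℝ) (y : R2), |t| ≤ 1 → R ≤ ‖y‖ →
    inner ℂ (x f) (Ut c.Q (bas o t + tv y) (x f)) =
      inner ℂ (Ut c.Q (bas o t + tv y) (σ • ThZ c (x (ng f)))) (σ • ThZ c (x (ng f)))

/-- row ANI: the gain under anisotropic scalings -/
def ANIZ : Prop := ∀ σ K x (r s : ℝ), TCZ c x → LocZ c σ K x → Bornology.IsBounded K → 0 < r →
  r < 1 → 0 < s → s < 1 → ∃ (m : ℕ) (C : ℝ), ∀ (N : ℕ) (f g : Sch),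
    (∀ z, g z = f (scp (r ^ N) (s ^ N) z)) →
    ‖x g‖ ≤ C * ((r * s) ^ (-(15 / 8 : ℝ))) ^ N * sn m f

/-- row KILL: no local eigenvectors of low twist -/
def KILLZ : Prop := ∀ σ y (r s a : ℝ), TCZ c y → LocZ c σ ∅ y → 0 < r → r < 1 → 0 < s → s < 1 →
  actZ c (Real.sqrt (r * s)) (Lsc r s) y = a • y → (r * s) ^ (-(15 / 8 : ℝ)) < a → y = 0

/-- row LIM: data as anisotropic limits -/
def LIMZ : Prop := ∀ w, SrcZ c w → ∀ σ S (r s a : ℝ), σ * σ = 1 → ContDiff ℝ ∞ S →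
  (∀ u, S (-u) = σ • S u) → 0 < r → r < 1 → 0 < s → s < 1 →
  pf (Real.sqrt (r * s)) (Lsc r s) S = a • S → 0 ≤ a → a * (r * s) ^ (-(15 / 8 : ℝ)) < 1 →
  ∃ x, DatZ c w σ S x ∧ ∀ (s' : ℝ) L (κ : ℝ), 0 < s' → IsLor L →
    (∀ z, sim 1 L 0 (scp r s z) = scp r s (sim 1 L 0 z)) → pf s' L S = κ • S →
    κ • gaZ c s' L x = x

/-! ## boost weights -/

/-- row WL: the weight lemma -/
def WLZ : Prop := ∀ σ (k : ℕ) y, σ * σ = 1 → HomZ c σ k y → ∃ z : ℤ → TT D,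
  (∀ n, HomZ c σ k (z n) ∧ ∀ t, actZ c 1 (Lb t) (z n) = Real.exp (n * t) • z n) ∧
  (∀ n, 4 - (k : ℤ) ≤ |n| → z n = 0) ∧ y = ∑ n ∈ Finset.Icc (-3 : ℤ) 3, z n ∧
  σ • actZ c 1 r1 y = ∑ n ∈ Finset.Icc (-3 : ℤ) 3, (-1 : ℝ) ^ n • z n

/-- row EU: existence and uniqueness give covariance -/
def EUZ : Prop := ∀ w, SrcZ c w → ∀ k : ℕ, (∀ y, HomZ c ((-1) ^ k) k y → y = 0) →
  (∀ h : Tn (Fin 4 ⊕ Fin k), ∃ x, HDZ c w h x) → ExtZ c w k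

/-- degrees three and higher -/
def A3Z : Prop := ∀ w, SrcZ c w → ∀ k, 3 ≤ k → ExtZ c w k

/-- degrees zero and one -/
def A1Z : Prop := ∀ w, SrcZ c w → ∀ k, k < 2 → ExtZ c w k

/-! ## degree two, the traceless class -/

/-- data for `u^2 η ⊗ n n` -/
structure PhiZ (w : WW D) (Φ : V → Fam D) : Prop where
  dat : ∀ n, IsNull n → DatZ c w 1 (h0 (sq n)) (Φ n)
  hom : ∀ n (t : ℝ), IsNull n → 0 < t → Φ (t • n) = t ^ 2 • Φ n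
  cov : ∀ (s : ℝ) L n, 0 < s → IsLor L → IsNull n → s ^ 2 • gaZ c s L (Φ n) = Φ (sim 1 L 0 n)

/-- row PHI -/
def PHIZ : Prop := ∀ w, SrcZ c w → ∃ Φ, PhiZ c w Φ

/-- row FIVE -/
def FIVEZ : Prop := ∀ w Φ, SrcZ c w → PhiZ c w Φ → ∀ x y, df5 (fun x => Φ (nb x)) x y = 0

/-- row TL -/
def TLZ : Prop := ∀ w, SrcZ c w → ∃ B : Tn (Fin 2) →ₗ[ℝ] Fam D,
  (∀ k, DatZ c w 1 (h0 (tl k)) (B k)) ∧
  ∀ (s : ℝ) L k, 0 < s → IsLor L → s ^ 2 • gaZ c s L (B (pb L k)) = B k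

/-! ## degree two, the scalar class -/

/-- row HMU: functions of the mass preserve wedge locality -/
def HMUZ : Prop := ∀ a b y ψ ψ' (h : ℝ → ℝ), IsNull a → IsNull b → 0 < mdot a b →
  SN.Bd (fun t => (h t : ℂ)) → Pr (c.N (Wdg a b y)) c.Om ψ ψ' →
  Pr (c.N (Wdg a b y)) c.Om (c.bt.Phi (fun p => h (mu p)) ψ) (c.bt.Phi (fun p => h (mu p)) ψ')

/-- row DL0: a distribution with local gradient is local -/
def DL0Z : Prop := ∀ σ K x, TCZ c x → (∀ v, LocZ c (-σ) K (x ∘L KDa.dS v)) → LocZ c σ K x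

/-- `F(P) x` is a tempered distribution -/
def MuZ (F : V → ℂ) (x : TT D) : Prop := ∃ (m : ℕ) (C : ℝ), ∀ f : Sch,
  ∫⁻ p, ENNReal.ofReal (‖F p‖ ^ 2) ∂c.nu (x f) ≤ ENNReal.ofReal ((C * sn m f) ^ 2)

/-- row IRN: division by the energy -/
def IRNZ : Prop := ∀ x y v, TCZ c x → TCZ c y →
  x = (2 : ℝ) • actZ c 2 GF.one x + y ∘L KDa.dS v → MuZ c (fun p => ((p o)⁻¹ : ℝ)) x

/-- row CVX: highest weight components -/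
def CVXZ : Prop := ∀ x (α β : ℝ), TCZ c x → (∀ w, actZ c 1 (Lg w) x = x) →
  (∀ r s, 0 < r → 0 < s → actZ c (Real.sqrt (r * s)) (Lsc r s) x = (r ^ α * s ^ β) • x) →
  -3 / 2 < β → ∃ κ : ℝ, 0 ≤ κ ∧ ∀ f : Sch, c.nu (x f) = (volume.restrict Fc).withDensity fun p =>
    ENNReal.ofReal (κ * be p ^ (2 * α - 2 * β) * mu p ^ (2 * β + 2) * ‖ft (ev f) p‖ ^ 2)

/-- row MUL -/
def MULZ : Prop := ∀ F x, TCZ c x → Measurable F → MuZ c F x →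
  ∃ y, TCZ c y ∧ ∀ f, c.bt.Dom F (x f) ∧ y f = c.bt.Psi F (x f)

/-- `m` is the potential of `n` -/
structure PotZ (n : V →ₗ[ℝ] TT D) (m : TT D) : Prop where
  tc : TCZ c m
  pos : ∀ f, c.bt.P {p | mu p ≠ 0} (m (bx f)) = c.bt.P {p | mu p ≠ 0} (dvg (fun v => n v) f)
  nul : ∀ v f, c.bt.P {p | mu p = 0} (m (KDa.dS v f)) = c.bt.P {p | mu p = 0} (n v f)

/-- row POT: existence, uniqueness and locality of the potential -/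
structure POTZ : Prop where
  ex : ∀ n : V →ₗ[ℝ] TT D, (∀ v, TCZ c (n v)) → (∀ v, MuZ c (fun p => ((p o)⁻¹ : ℝ)) (n v)) →
    MuZ c (fun p => ((mu p * be p)⁻¹ : ℝ)) (dcr n va) →
    MuZ c (fun p => ((mu p * al p)⁻¹ : ℝ)) (dcr n vb) →
    (∀ v v' f, c.bt.P {p | mu p = 0} (crl n v v' f) = 0) → ∃ m, PotZ c n m
  uq : ∀ n m m', PotZ c n m → PotZ c n m' → m = m'
  loc : ∀ n m K, (∀ v, TCZ c (n v)) → (∀ v, LocZ c (-1) K (n v)) → PotZ c n m → LocZ c 1 K m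

/-- row CRL: bounds for a covariant curl -/
def CRLZ : Prop := ∀ n : V →ₗ[ℝ] TT D, (∀ v, TCZ c (n v)) →
  (∀ s L v v', 0 < s → IsLor L → actZ c s L (crl n v v') = crl n (sim 1 L 0 v) (sim 1 L 0 v')) →
  MuZ c (fun p => ((mu p * be p)⁻¹ : ℝ)) (dcr n va) ∧
  MuZ c (fun p => ((mu p * al p)⁻¹ : ℝ)) (dcr n vb) ∧
  ∀ v v' f, c.bt.P {p | mu p = 0} (crl n v v' f) = 0

/-- row DIV: division by the momentum -/
def DIVZ : Prop := ∀ (n : V →ₗ[ℝ] Fam D) (cc : EC → EC → TT D), (∀ v η, TCZ c (n v η)) →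
  (∀ v (η : EC), LocZ c (-1) (tsupport η.1) (n v η)) → (∀ η η', TCZ c (cc η η')) →
  (∀ v η η', n v η - n v η' = cc η η' ∘L KDa.dS v) →
  (∀ (s : ℝ) L v, 0 < s → IsLor L → s • gaZ c s L (n v) = n (sim 1 L 0 v)) →
  ∃ m : Fam D, (∀ η : EC, TCZ c (m η) ∧ LocZ c 1 (tsupport η.1) (m η)) ∧
    (∀ η η', m η - m η' = cc η η') ∧ ∀ (s : ℝ) L, 0 < s → IsLor L → s ^ 2 • gaZ c s L m = m

/-- row SC -/
def SCZ : Prop := ∀ w, SrcZ c w → ∃ m, DatZ c w 1 (h0 et) m ∧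
  ∀ (s : ℝ) L, 0 < s → IsLor L → s ^ 2 • gaZ c s L m = m

/-- degree two -/
def A2Z : Prop := ∀ w, SrcZ c w → ExtZ c w 2

/-! ## assembly -/

/-- row PRE -/
def PREZ : Prop := ∃ w, PreZ c w

/-- row SRC -/
def SRCZ : Prop := ∀ w, PreZ c w → SrcZ c fun I J => PpZ c ∘L w I J

/-- row FIN -/
def FINZ : Prop := ∀ w, PreZ c w → (∀ k, ExtZ c (fun I J => PpZ c ∘L w I J) k) →
  ∃ wp, TP2 c.Q c.T true wp ∧ LocWZ c wp ∧ EvW wp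

/-- row CMP -/
def CMPZ : Prop := ∀ wp, TP2 c.Q c.T true wp → LocWZ c wp → EvW wp →
  ∃ wm, TP2 c.Q c.T false wm ∧ CmpZ c wp wm ∧ EvW wm

/-- row T3P -/
def T3PZ : Prop := ∀ wp wm, TP2 c.Q c.T true wp → TP2 c.Q c.T false wm → CmpZ c wp wm →
  ∃ t, TP c.Q c.T wp wm t

end

end Vale.Agent.P352X.TPD
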