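import Vale.Agent.P352X.TPD.A2
import Vale.Agent.P352Z.P352X.TPD.Spec

open Vale.Agent.P352G

/-!
# P352X, block TPD: row A2 (helper76)
-/

set_option linter.all false

open MeasureTheory Filter Topology
open scoped SchwartzMap ComplexConjugate ENNReal ContDiff

namespace Vale.Agent.P352X.TPD

open Vale.Agent.P352 Vale.Agent.P352.GF Vale.Agent.P352.BW Vale.Agent.P352.H246
open Vale.Agent.P352.H496 Vale.Agent.P352.H755 Vale.Agent.P352.H15
open UniformSpace (Completion)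
open Complex (I)

noncomputable section

namespace A2r

variable {D : Type*} [NormedAddCommGroup D] [InnerProductSpace ℂ D] [GrD D] {c : CtxZ D} {w : WW D}

lemma ga_DrZ (b : BAZ c) {s : ℝ} {L : Ix → V} (hs : 0 < s) (hL : IsLor L) (r : Ix) (x : Fam D) :
    gaZ c s L (Dr (bas r 1) x) = s • ∑ t, L r t • Dr (bas t 1) (gaZ c s L x) := by
  rw [← Dr_sum]
  funext η
  refine (b.der s L _ _ hs hL).trans ?_
  rw [show sim 1 L 0 (bas r 1) = L r from funext fun n => by simp [sim, bas]]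
  rfl

/-- the gauge data in the first slot -/
def GfZ (T : TEN) (p : BPZ c w) : Tn (Fin 3 ⊕ Fin 3) →ₗ[ℝ] Fam D where
  toFun ξ := g1 w (pol ξ)
  map_add' ξ ξ' := by
    rw [(T.add _ _ 0 ξ ξ').1]
    exact ((p.g1 1 _ (one_mul 1) (T.smooth _ _ ξ).1 fun u => by
      rw [(T.smooth _ _ ξ).2]; norm_num).2.2 _ 0 (T.smooth _ _ ξ').1).1
  map_smul' a ξ := by
    rw [(T.add _ _ a ξ ξ).2]
    exact ((p.g1 1 _ (one_mul 1) (T.smooth _ _ ξ).1 fun u => by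
      rw [(T.smooth _ _ ξ).2]; norm_num).2.2 _ a (T.smooth _ _ ξ).1).2

/-- the boundary terms in the third slot -/
def P3Z (T : TEN) (p : BPZ c w) : Tn (Fin 3 ⊕ Fin 3) →ₗ[ℝ] Fam D where
  toFun ξ η := psi w (b3 η.1 (pol ξ))
  map_add' ξ ξ' := funext fun η => by
    rw [(T.add _ _ 0 ξ ξ').1]
    exact ((p.g3 1 _ (one_mul 1) (T.smooth _ _ ξ).1 fun u => by
      rw [(T.smooth _ _ ξ).2]; norm_num).2.2.2 _ 0 η (T.smooth _ _ ξ').1).1
  map_smul' a ξ := funext fun η => by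
    rw [(T.add _ _ a ξ ξ).2]
    exact ((p.g3 1 _ (one_mul 1) (T.smooth _ _ ξ).1 fun u => by
      rw [(T.smooth _ _ ξ).2]; norm_num).2.2.2 _ a η (T.smooth _ _ ξ).1).2

/-- the gauge data in the third slot -/
lemma ex3Z (b : B0Z c) (hw : SrcZ c w) (h3 : ExtZ c w 3) : ∃ G : Tn (Fin 3 ⊕ Fin 3) →ₗ[ℝ] Fam D,
    (∀ ζ, DatZ c w 1 (d3 (pol ζ)) (G ζ)) ∧
    ∀ (s : ℝ) L ζ, 0 < s → IsLor L → s ^ 2 • gaZ c s L (G (pb L ζ)) = G ζ := by
  obtain ⟨B, d, e⟩ := h3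
  have T := b.ten
  have p := b.bp w hw
  have g := fun ζ : Tn (Fin 3 ⊕ Fin 3) => p.g3 1 _ (one_mul 1) (T.smooth _ _ ζ).1 fun u => by
    rw [(T.smooth _ _ ζ).2]; norm_num
  have a : ∀ ζ η, (∑ r, Dr (bas r 1) ∘ₗ B ∘ₗ io r - P3Z T p) ζ η =
      ∑ r, B (io r ζ) η ∘L KDa.dS (bas r 1) + (-1 : ℝ) • psi w (b3 η.1 (pol ζ)) := fun ζ η => by
    simp [LinearMap.sum_apply, Finset.sum_apply, Dr, P3Z, sub_eq_add_neg]
  refine ⟨∑ r, Dr (bas r 1) ∘ₗ B ∘ₗ io r - P3Z T p, fun ζ => ⟨fun η => ?_, fun η => ?_,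
    fun η η' => ?_⟩, fun s L ζ hs hL => ?_⟩
  · rw [a]
    exact b.ba.tc_add _ _ (Finset.sum_induction _ _ b.ba.tc_add b.ba.tc0 fun r _ =>
      b.ba.tc_der _ _ ((d _).tc η)) (b.ba.tc_smul _ _ ((g ζ).1 η).1)
  · rw [a]
    refine b.ba.loc_add _ _ _ _ (Finset.sum_induction _ _ (b.ba.loc_add _ _) (b.ba.loc0 _ _)
      fun r _ => ?_) (b.ba.loc_smul _ _ _ _ ((g ζ).1 η).2)
    have := b.ba.loc_der _ _ (bas r 1) _ ((d (io r ζ)).loc η)
    rwa [show -(-1 : ℝ) ^ 3 = 1 by norm_num] at this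
  · have h1 := (g ζ).2.1 η η'
    simp only [← pol_io, ← (d _).coc, ContinuousLinearMap.sub_comp, Finset.sum_sub_distrib] at h1
    rw [a, a, neg_one_smul, neg_one_smul, eq_sub_of_add_eq' h1]
    abel
  · have h1 : s ^ 2 • gaZ c s L (P3Z T p (pb L ζ)) = P3Z T p ζ := cube hs (by
      have := (g ζ).2.2.1 s L hs hL
      simp only [T.pol, fun η => ((g (pb L ζ)).2.2.2 _ (s ^ 3) η (T.smooth _ _ ζ).1).2] at this
      rw [← map_smul]
      exact this)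
    simp only [LinearMap.sub_apply, LinearMap.sum_apply, LinearMap.comp_apply, map_sub, map_sum,
      smul_sub, h1, ga_DrZ b.ba hs hL, Finset.smul_sum]
    rw [Finset.sum_comm]
    refine congrArg (· - _) (Finset.sum_congr rfl fun t _ => ?_)
    rw [← e s L (io t ζ) hs hL, pb_io T]
    simp only [map_sum, map_smul, Finset.smul_sum, smul_smul]
    exact Finset.sum_congr rfl fun r _ => congrArg (· • _) (by ring)

end A2r

open A2r

variable {D : Type*} [NormedAddCommGroup D] [InnerProductSpace ℂ D] [GrD D]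

/-- **row A2** -/
theorem a2_rowZ (c : CtxZ D) : B0Z c → EQ2 → A3Z c → TLZ c → SCZ c → A2Z c := by
  rintro b ⟨σ1, σ2, σ3, cv, eq⟩ a3 tl sc w hw
  have T := b.ten
  have p := b.bp w hw
  obtain ⟨G, dG, eG⟩ := ex3Z b hw (a3 w hw 3 le_rfl)
  obtain ⟨B, dB, eB⟩ := tl w hw
  obtain ⟨m, dm, em⟩ := sc w hw
  have g := fun ξ : Tn (Fin 3 ⊕ Fin 3) => p.g1 1 _ (one_mul 1) (T.smooth _ _ ξ).1 fun u => by
    rw [(T.smooth _ _ ξ).2]; norm_num
  refine ⟨GfZ T p ∘ₗ σ1 + G ∘ₗ σ2 + (B + trL.smulRight m) ∘ₗ σ3, fun h => ?_,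
    fun s L h hs hL => ?_⟩
  · have s1 := sm_d1 (T.smooth _ _ (σ1 h)).1
    have s2 := sm_d3 (T.smooth _ _ (σ2 h)).1
    have s3 := (T.h0s (TPD.tl (σ3 h))).1
    have s4 := (T.h0s et).1
    have s5 := s4.const_smul (trc (σ3 h) / 4)
    rw [neg_one_sq]
    refine p.dsy _ _ _ _ ((s1.add s2).add (s3.add s5)) (T.smooth _ _ h).1 (fun u => ?_)
      (p.dadd _ _ _ _ _ (s1.add s2) (s3.add s5) (p.dadd _ _ _ _ _ s1 s2 (g _).1 (dG _))
        (p.dadd _ _ _ _ _ s3 s5 (dB _) (p.dsmul _ _ _ _ s4 dm)))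
    rw [eq, sy_add _ (h0 _ _), sy_h0, ← sy_add]
  · obtain ⟨c1, c2, c3⟩ := cv L h hL
    have h1 : s ^ 2 • gaZ c s L (GfZ T p (pb L (σ1 h))) = GfZ T p (σ1 h) := cube hs (by
      have := (g (σ1 h)).2.1 s L hs hL
      rw [T.pol, ((g (pb L (σ1 h))).2.2 _ (s ^ 3) (T.smooth _ _ (σ1 h)).1).2, map_smul] at this
      exact this)
    have h2 : trL (pb L (σ3 h)) = trL (σ3 h) := congrArg (· / 4) (T.tl L _ hL).1
    simp only [LinearMap.add_apply, LinearMap.comp_apply, LinearMap.smulRight_apply, c1, c2, c3,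
      map_add, map_smul, smul_add, h1, h2, eG s L _ hs hL, eB s L _ hs hL]
    rw [smul_comm, em s L hs hL]

end

end Vale.Agent.P352X.TPD
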