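import Vale.Agent.P352X.TPD.Spec2
import Vale.Agent.P352Z.P352X.TPD.Spec

open Vale.Agent.P352G

/-!
# P352X, block TPD: the big tool rows in parts (see notes/P352/tpd.md)
-/

set_option linter.all false

open MeasureTheory Filter Topology
open scoped SchwartzMap ComplexConjugate ENNReal ContDiff

namespace Vale.Agent.P352X.TPD

open Vale.Agent.P352 Vale.Agent.P352.GF Vale.Agent.P352.BW Vale.Agent.P352.H246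
open Vale.Agent.P352.H496 Vale.Agent.P352.H755 Vale.Agent.P352.H15
open UniformSpace (Completion)
open Complex (I)

noncomputable section

variable {D : Type*} [NormedAddCommGroup D] [InnerProductSpace ℂ D] [GrD D] (c : CtxZ D)

/-- `Th`, `Pp`, `act` -/
structure BA1Z : Prop where
  th_ug : ∀ s L a z, 0 < s → IsLor L → (Gm D z = z ∨ L = GF.one) →
    ThZ c (Ug c.Q s L a z) = Ug c.Q s L (-a) (ThZ c z)
  th_om : ThZ c c.Om = c.Om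
  th_th : ∀ z, Gm D z = z → ThZ c (ThZ c z) = z
  th_gam : ∀ z, Gm D (ThZ c z) = ThZ c (Gm D z)
  pp_gam : ∀ z, Gm D (PpZ c z) = PpZ c (Gm D z)
  act_ev : ∀ s L x, EvT x → EvT (actZ c s L x)
  j_th : ∀ z, c.J (ThZ c z) = Ug c.Q 1 r1 0 z
  th_inner : ∀ v w, inner ℂ (ThZ c v) (ThZ c w) = inner ℂ w v
  th_phi : ∀ F z, SN.Bd F → ThZ c (c.bt.Phi F z) = c.bt.Phi (fun p => conj (F p)) (ThZ c z)
  th_two : ∀ (K M : I2) (f g : Sch),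
    ThZ c (c.T K.1 K.2 (ev f) (c.T M.1 M.2 (ev g) c.Q.vac) : D) =
      (c.T K.1 K.2 (bar (ev (ng f))) (c.T M.1 M.2 (bar (ev (ng g))) c.Q.vac) : D)
  pp : ∀ z, inner ℂ c.Om (PpZ c z) = 0 ∧ ThZ c (PpZ c z) = PpZ c (ThZ c z) ∧
    (∃ κ : ℂ, z = PpZ c z + κ • c.Om) ∧ (inner ℂ c.Om z = 0 → PpZ c z = z) ∧
    ∀ s L a, Ug c.Q s L a (PpZ c z) = PpZ c (Ug c.Q s L a z)
  pp_pr : ∀ O ψ ψ', Pr (c.N O) c.Om ψ ψ' → Pr (c.N O) c.Om (PpZ c ψ) (PpZ c ψ')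
  mul : ∀ s s' L L' x, 0 < s → 0 < s' → IsLor L → IsLor L' → (EvT x ∨ OkL L L') →
    actZ c s L (actZ c s' L' x) = actZ c (s * s') (T.cm L' L) x
  one : ∀ x, actZ c 1 GF.one x = x
  gmul : ∀ s s' L L' x, 0 < s → 0 < s' → IsLor L → IsLor L' → ((∀ η, EvT (x η)) ∨ OkL L L') →
    gaZ c s L (gaZ c s' L' x) = gaZ c (s * s') (T.cm L' L) x
  gone : ∀ x, gaZ c 1 GF.one x = x
  nrm : ∀ s L x f, ‖actZ c s L x f‖ = ‖x (pS s L f)‖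
  der : ∀ (s : ℝ) L x v, 0 < s → IsLor L →
    actZ c s L (x ∘L KDa.dS v) = s • (actZ c s L x ∘L KDa.dS (sim 1 L 0 v))
  cont : ∀ (ι : Type) (l : Filter ι) (L : ι → Ix → V) L0 x f, (∀ i, IsLor (L i)) → IsLor L0 →
    Tendsto L l (𝓝 L0) → EvT x → Tendsto (fun i => actZ c 1 (L i) x f) l (𝓝 (actZ c 1 L0 x f))
  gro : ∀ x : TT D, ∃ N : ℕ, ∀ f, ∃ C : ℝ, ∀ t, ‖actZ c 1 (Lb t) x f‖ ≤ C * Real.exp (N * |t|)

/-- `TC`, `Loc`, `Hom` -/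
structure BA2Z : Prop where
  tc0 : TCZ c 0
  tc_add : ∀ x y, TCZ c x → TCZ c y → TCZ c (x + y)
  tc_smul : ∀ (a : ℝ) x, TCZ c x → TCZ c (a • x)
  tc_act : ∀ s L x, 0 < s → IsLor L → TCZ c x → TCZ c (actZ c s L x)
  tc_der : ∀ v x, TCZ c x → TCZ c (x ∘L KDa.dS v)
  tc_gn : ∀ v x f, TCZ c x → Gn (fun t => Ut c.Q (t • v)) (x f) (I • x (KDa.dS v f))
  tc_psi : ∀ v x f, TCZ c x → c.bt.Dom (fun p => (mdot p v : ℝ)) (x f) ∧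
    x (KDa.dS v f) = -I • c.bt.Psi (fun p => (mdot p v : ℝ)) (x f)
  tc_rel : ∀ x f g, TCZ c x → c.bt.Phi (ft (ev g)) (x f) = c.bt.Phi (ft (ev f)) (x g)
  loc0 : ∀ σ K, LocZ c σ K 0
  loc_add : ∀ σ K x y, LocZ c σ K x → LocZ c σ K y → LocZ c σ K (x + y)
  loc_smul : ∀ σ K (a : ℝ) x, LocZ c σ K x → LocZ c σ K (a • x)
  loc_mono : ∀ σ K K' x, K ⊆ K' → LocZ c σ K x → LocZ c σ K' x
  loc_act : ∀ σ K s L x, 0 < s → IsLor L → EvT x → LocZ c σ K x →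
    LocZ c σ (sim s L 0 '' K) (actZ c s L x)
  loc_der : ∀ σ K v x, LocZ c σ K x → LocZ c (-σ) K (x ∘L KDa.dS v)
  loc_small : ∀ σ K x, (∀ ε : ℝ, 0 < ε → LocZ c σ (K ∪ Metric.ball 0 ε) x) → LocZ c σ K x
  loc_lim : ∀ σ K (x : ℕ → TT D) y, (∀ f, Tendsto (fun n => x n f) atTop (𝓝 (y f))) →
    (∀ ε : ℝ, 0 < ε → ∀ᶠ n in atTop, LocZ c σ (K ∪ Metric.ball 0 ε) (x n)) → LocZ c σ K y
  hom0 : ∀ σ k, HomZ c σ k 0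
  hom_add : ∀ σ k x y, HomZ c σ k x → HomZ c σ k y → HomZ c σ k (x + y)
  hom_smul : ∀ σ k (a : ℝ) x, HomZ c σ k x → HomZ c σ k (a • x)
  hom_act : ∀ σ k L x, IsLor L → HomZ c σ k x → HomZ c σ k (actZ c 1 L x)

theorem BAZ.of {c : CtxZ D} (h1 : BA1Z c) (h2 : BA2Z c) : BAZ c :=
  ⟨h1.th_ug, h1.th_om, h1.th_th, h1.th_gam, h1.pp_gam, h1.act_ev, h1.j_th, h1.th_inner, h1.th_phi, h1.th_two, h1.pp, h1.pp_pr,
    h1.mul, h1.one, h1.gmul, h1.gone, h1.nrm, h1.der, h1.cont, h1.gro, h2.tc0, h2.tc_add,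
    h2.tc_smul, h2.tc_act, h2.tc_der, h2.tc_gn, h2.tc_psi, h2.tc_rel, h2.loc0, h2.loc_add,
    h2.loc_smul, h2.loc_mono, h2.loc_act, h2.loc_der, h2.loc_small, h2.loc_lim, h2.hom0, h2.hom_add,
    h2.hom_smul, h2.hom_act⟩

/-- `psi` -/
structure BP1Z (w : WW D) : Prop where
  add : ∀ φ φ', Ok φ → Ok φ' → psi w (φ + φ') = psi w φ + psi w φ'
  smul : ∀ (a : ℝ) φ, Ok φ → psi w (a • φ) = a • psi w φ
  tc : ∀ φ, Ok φ → TCZ c (psi w φ)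
  loc : ∀ σ φ, σ * σ = 1 → Ok φ → (∀ u, φ (-u) = σ • φ u) → LocZ c σ (tsupport φ) (psi w φ)
  cov : ∀ s L φ, 0 < s → IsLor L → Ok φ → actZ c s L (psi w (pf s L φ)) = psi w φ
  sy : ∀ φ φ', Ok φ → Ok φ' → (∀ u, sy (φ u) = sy (φ' u)) → psi w φ = psi w φ'
  c1 : ∀ χ X, Tst χ → (0 : V) ∉ tsupport χ → ContDiff ℝ ∞ X →
    psi w (b1 χ X) + psi w (cs χ (d1 X)) = 0
  c3 : ∀ χ Y, Tst χ → (0 : V) ∉ tsupport χ → ContDiff ℝ ∞ Y →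
    psi w (b3 χ Y) + psi w (cs χ (d3 Y)) = ∑ r, psi w (cs χ (i3 r Y)) ∘L KDa.dS (bas r 1)

/-- `Dat` -/
structure BP2Z (w : WW D) : Prop where
  dzero : ∀ σ, DatZ c w σ 0 0
  dadd : ∀ σ S S' x x', ContDiff ℝ ∞ S → ContDiff ℝ ∞ S' → DatZ c w σ S x → DatZ c w σ S' x' →
    DatZ c w σ (S + S') (x + x')
  dsmul : ∀ σ (a : ℝ) S x, ContDiff ℝ ∞ S → DatZ c w σ S x → DatZ c w σ (a • S) (a • x)
  dsy : ∀ σ S S' x, ContDiff ℝ ∞ S → ContDiff ℝ ∞ S' → (∀ u, TPD.sy (S u) = TPD.sy (S' u)) →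
    DatZ c w σ S x → DatZ c w σ S' x
  dact : ∀ σ s L S x, 0 < s → IsLor L → ContDiff ℝ ∞ S → DatZ c w σ (pf s L S) x →
    DatZ c w σ S (gaZ c s L x)
  dhom : ∀ σ (k : ℕ) x, DatZ c w σ 0 x → (∀ s : ℝ, 0 < s → s ^ k • gaZ c s GF.one x = x) →
    ∃ y, HomZ c σ k y ∧ ∀ η, x η = y
  dcont : ∀ σ S x (ι : Type) (l : Filter ι) (L : ι → Ix → V) L0 η f, ContDiff ℝ ∞ S →
    DatZ c w σ S x → (∀ i, IsLor (L i)) → IsLor L0 → Tendsto L l (𝓝 L0) →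
    Tendsto (fun i => gaZ c 1 (L i) x η f) l (𝓝 (gaZ c 1 L0 x η f))
  g1 : ∀ σ X, σ * σ = 1 → ContDiff ℝ ∞ X → (∀ u, X (-u) = -σ • X u) →
    DatZ c w σ (d1 X) (g1 w X) ∧
    (∀ s L, 0 < s → IsLor L → gaZ c s L (g1 w (pf s L X)) = s • g1 w X) ∧
    ∀ X' (a : ℝ), ContDiff ℝ ∞ X' → g1 w (X + X') = g1 w X + g1 w X' ∧ g1 w (a • X) = a • g1 w X
  g3 : ∀ σ Y, σ * σ = 1 → ContDiff ℝ ∞ Y → (∀ u, Y (-u) = -σ • Y u) →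
    (∀ η : EC, TCZ c (psi w (b3 η.1 Y)) ∧ LocZ c σ (tsupport η.1) (psi w (b3 η.1 Y))) ∧
    (∀ η η' : EC, psi w (b3 η.1 Y) - psi w (b3 η'.1 Y) + psi w (cs (η.1 - η'.1) (d3 Y)) =
      ∑ r, psi w (cs (η.1 - η'.1) (i3 r Y)) ∘L KDa.dS (bas r 1)) ∧
    (∀ s L, 0 < s → IsLor L → gaZ c s L (fun η => psi w (b3 η.1 (pf s L Y))) =
      s • fun η : EC => psi w (b3 η.1 Y)) ∧
    ∀ Y' (a : ℝ) (η : EC), ContDiff ℝ ∞ Y' →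
      psi w (b3 η.1 (Y + Y')) = psi w (b3 η.1 Y) + psi w (b3 η.1 Y') ∧
      psi w (b3 η.1 (a • Y)) = a • psi w (b3 η.1 Y)

theorem BPZ.of {c : CtxZ D} {w : WW D} (h1 : BP1Z c w) (h2 : BP2Z c w) : BPZ c w :=
  ⟨h1.add, h1.smul, h1.tc, h1.loc, h1.cov, h1.sy, h1.c1, h1.c3, h2.dzero, h2.dadd, h2.dsmul,
    h2.dsy, h2.dact, h2.dhom, h2.dcont, h2.g1, h2.g3⟩

end

end Vale.Agent.P352X.TPD
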