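import Vale.Agent.P352X.TPD.Ba1
import Vale.Agent.P352Z.P352X.TPD.Spec2

open Vale.Agent.P352G

/-!
# P352X, block TPD: row BA1 (helper76)
-/

set_option linter.all false

open MeasureTheory Filter Topology
open scoped SchwartzMap ComplexConjugate ENNReal ContDiff

namespace Vale.Agent.P352X.TPD

open Vale.Agent.P352 Vale.Agent.P352.GF Vale.Agent.P352.BW Vale.Agent.P352.H246
open Vale.Agent.P352.H496 Vale.Agent.P352.H755 Vale.Agent.P352.H15
open UniformSpace (Completion)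
open Complex (I)

noncomputable section

namespace Ba1r

/-! ## matrices -/

/-! ## the Hilbert space -/

variable {D : Type*} [NormedAddCommGroup D] [InnerProductSpace ℂ D] [GrD D] {c : CtxZ D}

lemma ug_ugZ (g : GRPZ c) {s s' : ℝ} {L L' : Ix → V} (a a' : V) (hs : 0 < s) (hs' : 0 < s')
    (hL : IsLor L) (hL' : IsLor L') (z : Completion D) (h : Gm D z = z ∨ OkL L L') :
    Ug c.Q s L a (Ug c.Q s' L' a' z) = Ug c.Q (s * s') (T.cm L' L) (sim s L a a') z :=
  h.elim (g.mulE s L a s' L' a' z hs hs' hL hL') fun h =>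
    congrArg (fun A : Completion D →L[ℂ] Completion D => A z) (g.mul s L a s' L' a' hs hs' hL hL' h)

lemma gUZ (g : GRPZ c) (s : ℝ) (L : Ix → V) (a : V) (z : Completion D) :
    Gm D (Ug c.Q s L a z) = Ug c.Q s L a (Gm D z) :=
  congrArg (fun A : Completion D →L[ℂ] Completion D => A z) (g.gU s L a)

lemma th_eqZ (j : JCZ c) (e : TEN) (z : Completion D) (h : Gm D z = z) :
    ThZ c z = Ug c.Q 1 r1 0 (c.J z) := by
  rw [Th_applyZ, j.ug 1 r1 0 z one_pos e.r1.1 (.inl h), jL_r1, jr0]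

lemma th_gamZ (g : GRPZ c) (j : JCZ c) (z : Completion D) :
    Gm D (ThZ c z) = ThZ c (Gm D z) := by
  rw [Th_applyZ, Th_applyZ, ← j.gam, gUZ g]

lemma jL_oneZ : jL GF.one = GF.one := by
  funext m n
  by_cases h : m = n
  · simp [jL, GF.one, bas, h, sj_sq]
  · simp [jL, GF.one, bas, Ne.symm h]

lemma th_ugZ (g : GRPZ c) (j : JCZ c) (e : TEN) {s : ℝ} {L : Ix → V} (a : V) (z : Completion D)
    (hs : 0 < s) (hL : IsLor L) (h : Gm D z = z ∨ L = GF.one) :
    ThZ c (Ug c.Q s L a z) = Ug c.Q s L (-a) (ThZ c z) := by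
  rcases h with h | rfl
  · rw [Th_applyZ, th_eqZ j e z h, ug_ugZ g _ _ one_pos hs e.r1.1 hL _ (.inl h),
      ug_ugZ g _ _ hs one_pos hL e.r1.1 _ (.inl (by rw [← j.gam, h])),
      j.ug _ _ _ _ (mul_pos one_pos hs) (e.lcm _ _ e.r1.1 hL).1 (.inl h), jL_cm, e.r1.2, jr_jr,
      Grp.sim_zero, mul_comm]
  · have k := ug_ugZ g (sim 1 r1 0 a) 0 hs one_pos hL e.r1.1 z (.inr (OkL.one_l _))
    rw [Grp.sim_zero, mul_one, cm_one] at k
    rw [Th_applyZ, Th_applyZ, ug_ugZ g _ _ one_pos hs e.r1.1 hL _ (.inr (OkL.one_r _)), one_mul,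
      one_cm, ← k, j.ug _ _ _ _ hs hL (.inr (.inl rfl)), jL_oneZ, e.r1.2, jr_jr]

lemma th_omZ (g : GRPZ c) : ThZ c c.Om = c.Om := by
  rw [Th_applyZ, g.vac]
  exact c.E.J_xi

lemma th_innerZ (g : GRPZ c) (v w : Completion D) :
    inner ℂ (ThZ c v) (ThZ c w) = inner ℂ w v := by
  rw [Th_applyZ, Th_applyZ, P132.g5_inner_J, inner_unitary (g.uni _ _ _)]

lemma om_omZ : inner ℂ c.Om c.Om = 1 := by
  rw [inner_self_eq_norm_sq_to_K, c.E.norm_xi]
  simp

lemma pp_applyZ (z : Completion D) : PpZ c z = z - inner ℂ c.Om z • c.Om := rfl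

lemma T_smulZ (m n : Ix) {f : Fn} (hf : GF.IsTest f) (a : ℂ) (v : D) :
    c.T m n f (a • v) = a • c.T m n f v := by
  refine ext_inner_right ℂ fun w => ?_
  rw [c.hT.herm m n f _ w hf, inner_smul_left, inner_smul_left, c.hT.herm m n f _ w hf]

lemma cov_r1Z (e : TEN) (m n : Ix) {f : Fn} (hf : GF.IsTest f) (v : D) :
    c.Q.U 1 r1 0 (c.T m n f v) =
      ((sj m * sj n : ℝ) : ℂ) • c.T m n (fun z => f (-jr z)) (c.Q.U 1 r1 0 v) := by
  have ht := Grp.test_sim one_pos e.r1.1 0 hf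
  have h := c.hT.cov m n 1 r1 0 _ v one_pos e.r1.1 ht
  have e1 : ∀ z, -jr (-jr z) = z := fun z => by rw [jr_jr, neg_neg]
  simp only [e.r1.2, e1] at h
  rw [h]
  simp only [r1, bas, apply_ite Complex.ofReal, Complex.ofReal_zero, ite_mul, mul_ite, zero_mul,
    mul_zero, ite_smul, zero_smul, Finset.sum_ite_eq, Finset.mem_univ, if_true, smul_smul]
  rw [← Complex.ofReal_mul, ← Complex.ofReal_mul,
    show sj m * sj n * (-sj m * -sj n) = 1 by linear_combination (sj n * sj n) * sj_sq m + sj_sq n,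
    Complex.ofReal_one, one_smul]

end Ba1r

open Ba1r

variable {D : Type*} [NormedAddCommGroup D] [InnerProductSpace ℂ D] [GrD D] (c : CtxZ D)

/-- **row BA1** -/
theorem ba1_rowZ : T3Z c → TEN → BA1Z c := fun t e => by
  have g := t.grp
  have j := t.jc
  have mul : ∀ s s' L L' x, 0 < s → 0 < s' → IsLor L → IsLor L' → (EvT x ∨ OkL L L') →
      actZ c s L (actZ c s' L' x) = actZ c (s * s') (T.cm L' L) x :=
    fun s s' L L' x hs hs' hL hL' h => by
    ext f
    rw [act_applyZ, act_applyZ, act_applyZ, ug_ugZ g _ _ hs hs' hL hL' _ (h.imp_left fun h => h _),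
      Grp.sim_zero, pS_mul e hs hs' hL hL']
  have one : ∀ x, actZ c 1 GF.one x = x := fun x => by
    ext f
    rw [act_applyZ, Grp.ug_one, pS_one, ContinuousLinearMap.one_apply]
  have nrm : ∀ s L x f, ‖actZ c s L x f‖ = ‖x (pS s L f)‖ := fun s L x f =>
    ContinuousLinearMap.norm_map_of_mem_unitary (g.uni s L 0) _
  refine ⟨fun s L a z => th_ugZ g j e a z, th_omZ g, fun z hz => ?_, th_gamZ g j, fun z => ?_,
    fun s L x h f => ?_, fun z => c.E.J_J _, th_innerZ g,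
    fun F z hF => ?_, fun K M f f' => ?_, fun z => ⟨?_, ?_, ⟨inner ℂ c.Om z, ?_⟩, fun h => ?_,
    fun s L a => ?_⟩, fun O ψ ψ' h Z hZ => ?_, mul, one, fun s s' L L' x hs hs' hL hL' h => ?_,
    fun x => ?_, nrm, fun s L x v hs hL => ?_, fun ι l L L0 x f hL h0 hl hx => ?_, fun x => ?_⟩
  · rw [Th_applyZ, th_eqZ j e z hz,
      ug_ugZ g _ _ one_pos one_pos e.r1.1 e.r1.1 _ (.inl (by rw [← j.gam, hz])), r1_r1,
      Grp.sim_zero, one_mul, Grp.ug_one]
    exact c.E.J_J z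
  · rw [pp_applyZ, pp_applyZ, map_sub, map_smul, g.gv, ← c.hN.g0.herm, g.gv]
  · rw [act_applyZ, gUZ g, h]
  · exact c.bt.cov_anti c.bt SN.isPair_mdot measurable_id (A := fun y => -y)
      (fun p y => by simp [GF.mdot]) (ThZ c)
      (fun y => th_ugZ g j e y z one_pos H496.isLor_one (.inr rfl)) hF
  · have t1 : ∀ f : Sch, GF.IsTest fun z => ev f (-jr z) := fun f => by
      simpa only [e.r1.2] using Grp.test_sim one_pos e.r1.1 0 ⟨f, rfl⟩
    rw [Th_applyZ, g.coe _ _ _ _ one_pos e.r1.1, cov_r1Z e _ _ ⟨f, rfl⟩, cov_r1Z e _ _ ⟨f', rfl⟩,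
      c.Q.U_vac _ _ _ one_pos e.r1.1, T_smulZ _ _ (t1 f), smul_smul, Completion.coe_smul,
      LinearIsometryEquiv.map_smulₛₗ, j.two _ _ _ _ _ _ (t1 f) (t1 f'), smul_smul,
      ← Complex.ofReal_mul, Complex.conj_ofReal, ← Complex.ofReal_mul,
      show sj K.1 * sj K.2 * (sj M.1 * sj M.2) * (sj K.1 * sj K.2 * (sj M.1 * sj M.2)) =
        sj K.1 * sj K.1 * (sj K.2 * sj K.2) * (sj M.1 * sj M.1) * (sj M.2 * sj M.2) by ring]
    simp only [sj_sq, one_mul, Complex.ofReal_one, one_smul, jr_jr']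
    rfl
  · rw [pp_applyZ, inner_sub_right, inner_smul_right, om_omZ, mul_one, sub_self]
  · rw [pp_applyZ, pp_applyZ, map_sub, ContinuousLinearMap.map_smulₛₗ, th_omZ g, inner_conj_symm,
      ← th_innerZ g c.Om z, th_omZ g]
  · rw [pp_applyZ, sub_add_cancel]
  · rw [pp_applyZ, h, zero_smul, sub_zero]
  · rw [pp_applyZ, pp_applyZ, map_sub, map_smul, g.vac, ← inner_unitary (g.uni s L a) c.Om z, g.vac]
  · have h1 := h 1 (one_mem _)
    rw [star_one, ContinuousLinearMap.one_apply] at h1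
    rw [pp_applyZ, pp_applyZ, inner_sub_right, inner_sub_left, inner_smul_right, inner_smul_left,
      h Z hZ, inner_conj_symm, h1, ContinuousLinearMap.star_eq_adjoint,
      ContinuousLinearMap.adjoint_inner_left]
  · funext η
    rw [ga_applyZ, ga_applyZ, ga_applyZ, mul _ _ _ _ _ hs hs' hL hL' (h.imp_left fun h => h _),
      (e.pull η s s' L L' hs hs' hL hL').1]
  · funext η
    rw [ga_applyZ, one,
      (e.pull η 1 1 _ _ one_pos one_pos H496.isLor_one H496.isLor_one).2.1]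
  · ext f
    simp only [act_applyZ, ContinuousLinearMap.comp_apply, ContinuousLinearMap.smul_apply,
      dS_pS hs hL, ContinuousLinearMap.map_smul_of_tower]
  · refine tendsto_apply (C := 1) (.of_forall fun i => ?_)
      ((x.continuous.tendsto _).comp (pS_cont t.lie hL h0 hl f))
      (g.cont ι l (fun _ => 1) L (fun _ => 0) 1 L0 0 _ (.inl (hx _)) (fun i => ⟨one_pos, hL i⟩)
        one_pos h0 tendsto_const_nhds hl tendsto_const_nhds)
    exact ContinuousLinearMap.opNorm_le_bound _ zero_le_one fun z => by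
      rw [ContinuousLinearMap.norm_map_of_mem_unitary (g.uni _ _ _), one_mul]
  · obtain ⟨m, C, hC, h⟩ := t.lie.clm V ((normSeminorm ℂ (Completion D)).comp x.toLinearMap)
      (continuous_norm.comp x.continuous)
    obtain ⟨N, hN⟩ := pS_gro t.lie e m
    refine ⟨N, fun f => ⟨C * Real.exp N * sn m f, fun r => ?_⟩⟩
    rw [nrm]
    refine (h _).trans ((mul_le_mul_of_nonneg_left (hN r f) hC).trans_eq (by ring))

end

end Vale.Agent.P352X.TPD
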