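import Vale.Agent.P352X.TPD.Ba2
import Vale.Agent.P352Z.P352X.Api1C
import Vale.Agent.P352Z.P352X.R.TWO.Mu
import Vale.Agent.P352Z.P352X.TPD.Spec2

open Vale.Agent.P352G

/-!
# P352X, block TPD: row BA2
-/

noncomputable section

open Filter Topology Set Metric
open Complex (I)

namespace Vale.Agent.P352X.TPD

open Vale.Agent.P352 Vale.Agent.P352.GF Vale.Agent.P352.BW Vale.Agent.P352.H246
open Vale.Agent.P352.H496 Vale.Agent.P352.H755 Vale.Agent.P352.H15

variable {D : Type*} [NormedAddCommGroup D] [InnerProductSpace ℂ D] [GrD D] {c : CtxZ D}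

namespace Ba2

variable {σ s : ℝ} {K K' : Set V} {x y : TT D} {L : Ix → V}

lemma th_smulZ (a : ℝ) (z : UniformSpace.Completion D) : ThZ c (a • z) = a • ThZ c z := by
  rw [← Complex.coe_smul, map_smulₛₗ, Complex.conj_ofReal, Complex.coe_smul]

lemma tc_addZ (h : TCZ c x) (h' : TCZ c y) : TCZ c (x + y) :=
  ⟨fun a f => by simp [h.tra, h'.tra], fun f => by simp [inner_add_right, h.perp, h'.perp],
    fun f => by rw [ContinuousLinearMap.add_apply, map_add, h.ev f, h'.ev f]⟩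

lemma tc_smulZ (a : ℝ) (h : TCZ c x) : TCZ c (a • x) :=
  ⟨fun v f => by simp [h.tra], fun f => by
    rw [smul_apply, ← Complex.coe_smul, inner_smul_right, h.perp, mul_zero],
    fun f => by rw [smul_apply, ContinuousLinearMap.map_smul_of_tower, h.ev f]⟩

lemma tc_actZ (b : BA1Z c) (hs : 0 < s) (hL : IsLor L) (h : TCZ c x) : TCZ c (actZ c s L x) := by
  refine ⟨fun a f => ?_, fun f => ?_, fun f => by
    rw [act_applyZ, c.hN.toRepZ.gUz, h.ev]⟩
  · obtain ⟨a, rfl⟩ := (H755.simE s L hs hL).surjective a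
    rw [act_applyZ, act_applyZ, H755.simE_apply, ← ContinuousLinearMap.mul_apply, ← Two.ug_utZ hs hL,
      ContinuousLinearMap.mul_apply, h.tra]
    congr 2
    ext z
    simp only [ST.tsl_apply, pS_apply hs hL, ← H755.simE_apply hs hL, map_sub]
  · rw [act_applyZ, ← (b.pp _).2.2.2.1 (h.perp _), (b.pp _).2.2.2.2]
    exact (b.pp _).1

lemma tc_gnZ (l : LIE) (v : V) (f : Sch) (h : TCZ c x) :
    Gn (fun t => Ut c.Q (t • v)) (x f) (I • x (KDa.dS v f)) := by
  have := (x.continuous.tendsto _).comp (l.der V (fun _ => 1) (fun t => -(t • v)) 0 (-v) f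
    (-KDa.dS v f) (fun t => ST.tsl (t • v) f) (hasDerivAt_const _ _)
    (by simpa using ((hasDerivAt_id (0 : ℝ)).smul_const v).fun_neg) rfl (by simp)
    (.of_forall fun t z => by simp [sub_eq_add_neg]) fun z => by simp [dS_apply])
  rw [Gn, smul_smul, Complex.I_mul_I, neg_one_smul, hasDerivAt_iff_tendsto_slope_zero, ← map_neg]
  refine this.congr fun t => ?_
  simp only [Function.comp, zero_add, zero_smul, h.tra, x.map_smul_of_tower, map_sub]
  congr 3
  ext z
  simp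

lemma loc_addZ (h : LocZ c σ K x) (h' : LocZ c σ K y) : LocZ c σ K (x + y) :=
  fun a b v f h1 h2 h3 h4 h5 h6 => by
    simpa using (h a b v f h1 h2 h3 h4 h5 h6).add (h' a b v f h1 h2 h3 h4 h5 h6)

lemma loc_smulZ (r : ℝ) (h : LocZ c σ K x) : LocZ c σ K (r • x) :=
  fun a b v f h1 h2 h3 h4 h5 h6 => by
    rw [smul_apply, smul_apply, th_smulZ, smul_comm]
    exact (h a b v f h1 h2 h3 h4 h5 h6).rsmul r

lemma loc_monoZ (k : K ⊆ K') (h : LocZ c σ K x) : LocZ c σ K' x :=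
  fun a b v f h1 h2 h3 h4 h5 h6 => h a b v f h1 h2 h3 h4 h5 fun z hz u hu => h6 z hz u (k hu)

lemma loc_actZ (g : GRPZ c) (B : BA1Z c) (hs : 0 < s) (hL : IsLor L) (ev : EvT x)
    (h : LocZ c σ K x) :
    LocZ c σ (sim s L 0 '' K) (actZ c s L x) := fun a b v f h1 h2 h3 h4 h5 h6 => by
  let e := (H755.simE s L hs hL).toContinuousLinearEquiv
  have he : ∀ u, sim s L 0 u = e u := fun u => (H755.simE_apply hs hL u).symm
  have e1 : ⇑(pS s L f) = f ∘ e := funext fun z => by rw [pS_apply hs hL, he, Function.comp]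
  have e2 : ∀ z ∈ tsupport (pS s L f), e z ∈ tsupport f := fun z hz =>
    closure_minimal (t := e ⁻¹' tsupport f) (fun x hx => subset_tsupport f (by rwa [e1] at hx))
      ((isClosed_tsupport f).preimage e.continuous) hz
  have := (h _ _ ((H755.simE s L hs hL).symm v) (pS s L f) (isNull_lor (isLor_linv hL) h1)
    (isNull_lor (isLor_linv hL) h2) (by rwa [md_LL (isLor_linv hL)])
    (e1 ▸ h4.comp_homeomorph e.toHomeomorph)
    (fun z hz => (mem_wdg hs hL _ _ _ _).2 (he z ▸ h5 (e2 z hz))) fun z hz u hu =>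
      (mem_wdg hs hL _ _ _ _).2 (by
        rw [he, map_add]
        exact h6 _ (e2 z hz) _ ⟨u, hu, he u⟩)).cov (M' := c.N (Wdg a b v)) (g.uni s L 0)
    (g.vac s L 0) fun X hX => by
      convert (g.alg s L 0 _ hs hL X).1 hX using 2
      ext z
      obtain ⟨z, rfl⟩ := e.surjective z
      rw [← he, ← mem_wdg hs hL]
      exact ⟨fun k => ⟨z, k, rfl⟩, fun ⟨w, k, r⟩ => e.injective (a₁ := w) (a₂ := z) (by rw [← he, ← he, r]) ▸ k⟩
  rw [act_applyZ, act_applyZ, B.th_ug _ _ _ _ hs hL (.inl (ev _)), neg_zero, show pS s L (ng f) = ng (pS s L f) from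
    SchwartzMap.ext fun z => by simp only [pS_apply hs hL, ng_apply, he, map_neg]]
  rwa [ContinuousLinearMap.map_smul_of_tower] at this

lemma loc_derZ (v : V) (h : LocZ c σ K x) : LocZ c (-σ) K (x ∘L KDa.dS v) :=
  fun a b w f h1 h2 h3 h4 h5 h6 => by
    have k := SchwartzMap.tsupport_lineDerivOp_subset v f
    have := h a b w (KDa.dS v f) h1 h2 h3 (h4.of_isClosed_subset (isClosed_tsupport _) k)
      (k.trans h5) fun z hz => h6 z (k hz)
    simpa [ng_dS] using this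

lemma dlaZ (b : BA1Z c) (hs : 0 < s) (hL : IsLor L) (x : TT D) :
    actZ c s GF.one (actZ c 1 L x) = actZ c 1 L (actZ c s GF.one x) := by
  rw [b.mul _ _ _ _ _ hs one_pos H496.isLor_one hL (.inr (.inl rfl)),
    b.mul _ _ _ _ _ one_pos hs hL H496.isLor_one (.inr (.inr (.inl rfl))), mul_comm]
  congr 2
  ext m n
  simp [T.cm_apply, GF.one, bas]

end Ba2

open Ba2 in
/-- **row BA2** -/
theorem ba2_rowZ (c : CtxZ D) (t : T3Z c) (_ : TEN) (b : BA1Z c) : BA2Z c where
  tc0 := ⟨by simp, by simp, fun _ => map_zero _⟩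
  tc_add _ _ := tc_addZ
  tc_smul a _ := tc_smulZ a
  tc_act _ _ _ := tc_actZ b
  tc_der v x h := ⟨fun a f => by simp [h.tra, tsl_dS], fun f => h.perp _, fun f => h.ev _⟩
  tc_gn v _ f := tc_gnZ t.lie v f
  tc_psi v x f h := by
    have := (gn_iff_bc c.bt SN.isPair_mdot fun _ => rfl).1 (tc_gnZ t.lie v f h)
    exact ⟨this.1, by rw [this.2, smul_smul]; simp⟩
  tc_rel x f g h := Two.rel_clmZ x (fun y _ => (h.tra y f).symm) fun y _ => (h.tra y g).symm
  loc0 _ _ _ _ _ _ _ _ _ _ _ _ := by simpa using Pr.zero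
  loc_add _ _ _ _ := loc_addZ
  loc_smul _ _ a _ := loc_smulZ a
  loc_mono _ _ _ _ := loc_monoZ
  loc_act _ _ _ _ _ := loc_actZ t.grp b
  loc_der _ _ v _ := loc_derZ v
  loc_small σ K x h a b v f h1 h2 h3 h4 h5 h6 :=
    let ⟨ε, h0, k⟩ := small h4 h5 h6
    h ε h0 a b v f h1 h2 h3 h4 h5 k
  loc_lim σ K x y l h a b v f h1 h2 h3 h4 h5 h6 :=
    let ⟨ε, h0, k⟩ := small h4 h5 h6
    .closed ((h ε h0).mono fun _ q => q a b v f h1 h2 h3 h4 h5 k) (l f)
      ((((ThZ c).continuous.tendsto _).comp (l _)).const_smul σ)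
  hom0 _ _ := ⟨⟨by simp, by simp, fun _ => map_zero _⟩, fun _ _ _ _ _ _ _ _ _ _ => by simpa using Pr.zero,
    fun _ _ => by simp⟩
  hom_add _ _ _ _ h h' := ⟨tc_addZ h.tc h'.tc, loc_addZ h.loc h'.loc, fun s hs => by
    rw [map_add, smul_add, h.hom s hs, h'.hom s hs]⟩
  hom_smul _ _ a _ h := ⟨tc_smulZ a h.tc, loc_smulZ a h.loc, fun s hs => by
    rw [map_smul, smul_comm, h.hom s hs]⟩
  hom_act _ _ _ _ hL h := ⟨tc_actZ b one_pos hL h.tc,
    by simpa using loc_actZ t.grp b one_pos hL h.tc.ev h.loc, fun s hs => by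
      rw [dlaZ b hs hL, ← map_smul, h.hom s hs]⟩

end Vale.Agent.P352X.TPD

end
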