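import Vale.Agent.P352X.TPD.Bp1
import Vale.Agent.P352Z.P352X.Api1C
import Vale.Agent.P352Z.P352X.TPD.Spec2

open Vale.Agent.P352G

/-!
# P352X, block TPD: row BP1, the calculus of `psi`
-/

set_option linter.all false

open MeasureTheory Filter Topology
open scoped SchwartzMap ComplexConjugate ENNReal ContDiff LineDeriv

namespace Vale.Agent.P352X.TPD

open Vale.Agent.P352 Vale.Agent.P352.GF Vale.Agent.P352.BW Vale.Agent.P352.H246
open Vale.Agent.P352.H496 Vale.Agent.P352.H755 Vale.Agent.P352.H15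
open UniformSpace (Completion)
open Complex (I)

noncomputable section

namespace Bp

variable {D : Type*} [NormedAddCommGroup D] [InnerProductSpace ℂ D] [GrD D] {c : CtxZ D} {w : WW D}

lemma covZ (T : TEN) (S : SrcZ c w) {s : ℝ} {L : Ix → V} (a : V) (hs : 0 < s) (hL : IsLor L)
    {φ : V → Tn (Fin 4)} (h : Ok φ) (f g : Sch) (hg : ∀ x, g x = f (sim s L a x)) :
    Ug c.Q s L a (psi w (pf s L φ) g) = psi w φ f := by
  have h1 : ∀ K M, Api4.ten2 (e fun u => pf s L φ u (q K M)) g = ∑ I, ∑ J,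
      (L2 L K I * L2 L M J) • Api4.ten2 (pS s L (e fun u => φ u (q I J))) g := fun K M => by
    ext z
    simp only [ten_e (ok_tst (T.okp s L φ hs hL h) _), SchwartzMap.sum_apply,
      SchwartzMap.smul_apply, Api4.ten2_apply, pS_apply hs hL, e_apply (ok_tst h _), smul_eq_mul,
      ← mul_assoc, ← Finset.sum_mul]
    exact congrArg (· * _) (T.four L _ K M)
  have h2 : ∀ I J, w I J (Api4.ten2 (e fun u => φ u (q I J)) f) = ∑ K, ∑ M,
      (L2 L K I * L2 L M J) • Ug c.Q s L a (w K M (Api4.ten2 (pS s L (e fun u => φ u (q I J))) g)) :=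
    fun I J => S.cov s L a I J _ _ hs hL (ok_offD h _ f) fun x y => by
      simp only [Api4.ten2_apply, pS_apply hs hL, hg, sim_sub]
  simp only [psi_apply, h1, h2, map_sum, map_smul]
  rw [Finset.sum_congr rfl fun K _ => Finset.sum_comm, Finset.sum_comm]
  refine Finset.sum_congr rfl fun I _ => ?_
  rw [Finset.sum_congr rfl fun K _ => Finset.sum_comm, Finset.sum_comm]

lemma tcZ (T : TEN) (S : SrcZ c w) {φ : V → Tn (Fin 4)} (h : Ok φ) : TCZ c (psi w φ) := by
  refine ⟨fun a f => ?_, fun f => by simp [psi_apply, inner_sum, S.perp],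
    fun f => by simp only [psi_apply, map_sum, S.ev _ _ _]⟩
  have h1 : pf 1 GF.one φ = φ := funext fun u => by rw [TPD.pf, T.one, sim_ut, add_zero]
  have := covZ T S a one_pos H496.isLor_one h (ST.tsl a f) f fun x => by
    simp [ST.tsl_apply, sim_ut]
  rwa [h1] at this

lemma locZ (S : SrcZ c w) {σ : ℝ} {φ : V → Tn (Fin 4)} (h : Ok φ) (hσ : ∀ u, φ (-u) = σ • φ u) :
    LocZ c σ (tsupport φ) (psi w φ) := by
  intro a b y f ha hb hab hf h1 h2
  simp only [psi_apply, map_sum, Finset.smul_sum]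
  refine Pr.sum _ fun I _ => Pr.sum _ fun J _ => ?_
  have t := ok_tst h (q I J)
  refine (S.loc a b y I J _ ((σ : ℂ) • Api4.ten2 (e fun u => φ u (q I J)) (ng f)) ha hb hab
    (ok_offD h _ f) ?_ (fun z hz => ?_) fun x z => ?_).cast rfl ?_
  · have := (Api4.sch_ten2 (Api4.dc_of_sch _ (e_cpt t)) (Api4.dc_of_sch _ hf)).1.2
    rwa [← funext (Api4.ten2_apply _ f)] at this
  · obtain ⟨h3, h4⟩ := ten_supp t f hz
    exact ⟨by simpa using h2 _ h4 _ (comp_supp φ _ h3), h1 h4⟩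
  · have : -x - -z = -(x - z) := by abel
    simp [ten_e t, ng_apply, this, hσ, mul_assoc, -neg_sub]
  · rw [map_smul, map_smulₛₗ, Complex.conj_ofReal, Complex.coe_smul]

lemma fourZ (S : SrcZ c w) (A : I2 → I2 → S2) :
    ∑ I, ∑ J, w I J (A I J + A I.swap J + A I J.swap + A I.swap J.swap) =
      (4 : ℂ) • ∑ I, ∑ J, w I J (A I J) := by
  have h1 : ∀ A : I2 → I2 → S2, ∑ I, ∑ J, w I J (A I.swap J) = ∑ I, ∑ J, w I J (A I J) := fun A =>
    Fintype.sum_equiv (Equiv.prodComm _ _) _ _ fun I => Finset.sum_congr rfl fun J _ => by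
      rw [S.ind1 I J]; rfl
  have h2 : ∀ A : I2 → I2 → S2, ∑ I, ∑ J, w I J (A I J.swap) = ∑ I, ∑ J, w I J (A I J) := fun A =>
    Finset.sum_congr rfl fun I _ => Fintype.sum_equiv (Equiv.prodComm _ _) _ _ fun J => by
      rw [S.ind2 I J]; rfl
  simp only [map_add, Finset.sum_add_distrib]
  rw [h1 A, h2 A, h1 fun I J => A I J.swap, h2 A]
  module

lemma syZ (S : SrcZ c w) {φ φ' : V → Tn (Fin 4)} (h : Ok φ) (h' : Ok φ')
    (hs : ∀ u, TPD.sy (φ u) = TPD.sy (φ' u)) : psi w φ = psi w φ' := by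
  ext f
  refine smul_right_injective _ (by norm_num : (4 : ℂ) ≠ 0) ?_
  simp only [psi_apply, ← fourZ S]
  refine Finset.sum_congr rfl fun I _ => Finset.sum_congr rfl fun J _ => congrArg _ ?_
  ext z
  simp only [SchwartzMap.add_apply, ten_e (ok_tst h _), ten_e (ok_tst h' _), ← add_mul,
    ← Complex.ofReal_add]
  exact congrArg (fun t : ℝ => (t : ℂ) * _) (congrFun (hs (z.1 - z.2)) (q I J))

lemma c1Z (S : SrcZ c w) {χ : V → ℝ} {X : V → Tn (Fin 3)} (h : Tst χ) (h0 : (0 : V) ∉ tsupport χ)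
    (hX : ContDiff ℝ ∞ X) : psi w (b1 χ X) + psi w (cs χ (d1 X)) = 0 := by
  ext f
  simp only [ContinuousLinearMap.add_apply, psi_apply, ← Finset.sum_add_distrib, ← map_add,
    ← ten_add, ContinuousLinearMap.zero_apply]
  rw [Finset.sum_comm]
  refine Finset.sum_eq_zero fun J _ => ?_
  rw [Fintype.sum_prod_type_right]
  refine Finset.sum_eq_zero fun n _ => ?_
  have hg := contDiff_pi.1 hX ![n, J.1, J.2]
  refine Eq.trans (Finset.sum_congr rfl fun m _ => congrArg _ ?_) (S.c1 n J _ (off_mul h h0 hg f))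
  rw [ten_der, sub_zero, e_mul_der h hg, LineDeriv.lineDerivOp_left_zero, map_zero, add_zero]
  rfl

lemma c3Z (S : SrcZ c w) {χ : V → ℝ} {Y : V → Tn (Fin 3)} (h : Tst χ) (h0 : (0 : V) ∉ tsupport χ)
    (hY : ContDiff ℝ ∞ Y) : psi w (b3 χ Y) + psi w (cs χ (d3 Y)) =
      ∑ r, psi w (cs χ (i3 r Y)) ∘L KDa.dS (bas r 1) := by
  ext f
  simp only [ContinuousLinearMap.add_apply, psi_apply, ← Finset.sum_add_distrib, ← map_add,
    ← ten_add, ContinuousLinearMap.sum_apply, ContinuousLinearMap.comp_apply]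
  refine Eq.trans (Finset.sum_congr rfl fun I _ => ?_) Finset.sum_comm
  simp only [Fintype.sum_prod_type_right]
  refine Eq.trans (Finset.sum_congr rfl fun n _ => ?_) Finset.sum_comm
  have hg := contDiff_pi.1 hY ![I.1, I.2, n]
  have h1 : ∀ r t f, Api4.ten2 (e fun u => cs χ (i3 r Y) u (q I (t, n))) f =
      (bas r 1 t : ℂ) • Api4.ten2 (e fun u => χ u * Y u ![I.1, I.2, n]) f := fun r t f => by
    have t1 : Tst fun u => cs χ (i3 r Y) u (q I (t, n)) := tst_mul h (contDiff_const.mul hg)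
    ext z
    rw [ten_e t1, SchwartzMap.smul_apply, ten_e (tst_mul h hg)]
    simp [cs, i3, q]
    ring
  have h2 := S.c2 I n _ (off_mul h h0 hg f)
  have h3 : ∀ r : Ix, ∂_{(0 - bas r 1 : V)} (e fun u => χ u * Y u ![I.1, I.2, n]) =
      -((e fun u => b3 χ Y u (q I (r, n))) + e fun u => cs χ (d3 Y) u (q I (r, n))) := fun r => by
    rw [zero_sub, LineDeriv.lineDerivOp_left_neg, e_mul_der h hg]
    rfl
  simp only [ten_der, h3, ten_neg, map_add, map_neg, Finset.sum_add_distrib, Finset.sum_neg_distrib,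
    neg_add_eq_zero] at h2
  simp only [h1, map_smul, h2]
  refine Finset.sum_congr rfl fun r _ => ?_
  rw [Finset.sum_eq_single r (fun t _ ht => by simp [bas, ht]) (by simp)]
  simp [bas, KDa.dS]

end Bp

variable {D : Type*} [NormedAddCommGroup D] [InnerProductSpace ℂ D] [GrD D]

theorem bp1_rowZ (c : CtxZ D) : T3Z c → TEN → BAZ c → ∀ w, SrcZ c w → BP1Z c w := fun _ T _ _ S =>
  ⟨fun _ _ => Bp.add, fun a _ => Bp.smul a, fun _ => Bp.tcZ T S, fun _ _ _ => Bp.locZ S,
    fun s L _ hs hL h => ContinuousLinearMap.ext fun f =>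
      Bp.covZ T S 0 hs hL h f _ (pS_apply hs hL f),
    fun _ _ => Bp.syZ S, fun _ _ => Bp.c1Z S, fun _ _ => Bp.c3Z S⟩

end

end Vale.Agent.P352X.TPD
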