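import Vale.Agent.P352X.TPD.Bp2
import Vale.Agent.P352Z.P352X.TPD.Bp1

open Vale.Agent.P352G

/-!
# P352X, block TPD: row BP2, the calculus of `Dat`
-/

set_option linter.all false

open MeasureTheory Filter Topology
open scoped SchwartzMap ComplexConjugate ENNReal ContDiff LineDeriv

namespace Vale.Agent.P352X.TPD

open Vale.Agent.P352 Vale.Agent.P352.GF Vale.Agent.P352.BW Vale.Agent.P352.H246
open Vale.Agent.P352.H496 Vale.Agent.P352.H755 Vale.Agent.P352.H15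
open UniformSpace (Completion)
open Complex (I)

noncomputable section

namespace Bp

variable {D : Type*} [NormedAddCommGroup D] [InnerProductSpace ℂ D] [GrD D] {c : CtxZ D} {w : WW D}

variable (T : TEN) (B : BAZ c) (P : BP1Z c w)
include T B P

lemma dactZ {σ s : ℝ} {L : Ix → V} {S : V → Tn (Fin 4)} {x : Fam D} (hs : 0 < s) (hL : IsLor L)
    (hS : ContDiff ℝ ∞ S) (h : DatZ c w σ (pf s L S) x) : DatZ c w σ S (gaZ c s L x) := by
  refine ⟨fun η => B.tc_act _ _ _ hs hL (h.tc _), fun η => ?_, fun η η' => ?_⟩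
  · rw [← (T.pull η s s L L hs hs hL hL).2.2]
    exact B.loc_act _ _ _ _ _ hs hL (h.tc _).ev (h.loc _)
  · rw [ga_applyZ, ga_applyZ, ← map_sub, h.coc, ← P.cov s L _ hs hL (okc T η η' hS)]
    congr 2
    funext u
    simp [cs, TPD.pf, EC.pull_apply _ hs hL]

omit P in
lemma dhomZ {σ : ℝ} {k : ℕ} {x : Fam D} (h : DatZ c w σ 0 x)
    (hh : ∀ s : ℝ, 0 < s → s ^ k • gaZ c s GF.one x = x) : ∃ y, HomZ c σ k y ∧ ∀ η, x η = y := by
  obtain ⟨η0, -⟩ := T.small 1 one_pos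
  have h1 : ∀ η, x η = x η0 := fun η => sub_eq_zero.1 (by rw [h.coc, cs_zero, psi_zero])
  refine ⟨x η0, ⟨h.tc _, B.loc_small _ _ _ fun ε hε => ?_, fun s hs => ?_⟩, h1⟩
  · obtain ⟨η, hη⟩ := T.small ε hε
    exact B.loc_mono _ _ _ _ (hη.trans Set.subset_union_right) (h1 η ▸ h.loc η)
  · have := congrFun (hh s hs) η0
    rwa [Pi.smul_apply, ga_applyZ, h1] at this

omit T P in
lemma dcontZ (H : LIE) {σ : ℝ} {S : V → Tn (Fin 4)} {x : Fam D} {ι : Type} {l : Filter ι}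
    {L : ι → Ix → V} {L0 : Ix → V} (η : EC) (f : Sch) (hS : ContDiff ℝ ∞ S) (h : DatZ c w σ S x)
    (hL : ∀ i, IsLor (L i)) (h0 : IsLor L0) (ht : Tendsto L l (𝓝 L0)) :
    Tendsto (fun i => gaZ c 1 (L i) x η f) l (𝓝 (gaZ c 1 L0 x η f)) := by
  have h1 : ∀ i, gaZ c 1 (L i) x η f = actZ c 1 (L i) (x (η.pull 1 L0)) f +
      actZ c 1 (L i) (psi w (cs ((η.pull 1 (L i)).1 - (η.pull 1 L0).1) S)) f := fun i => by
    rw [← h.coc, map_sub, ga_applyZ, ContinuousLinearMap.sub_apply, add_sub_cancel]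
  have h2 : Tendsto (fun i => psi w (cs ((η.pull 1 (L i)).1 - (η.pull 1 L0).1) S) (pS 1 (L i) f))
      l (𝓝 0) := psi_tend (fun ν => ((e_tend η.2.1.1 (contDiff_pi.1 hS ν) h0).comp ht).congr
        fun i => by rw [pull_eq η one_pos (hL i), pull_eq η one_pos h0]; rfl) (pS_tend H hL h0 ht f)
  have h3 := (B.cont ι l L L0 (x (η.pull 1 L0)) f hL h0 ht (h.tc _).ev).add
    (tendsto_zero_iff_norm_tendsto_zero.2 ((tendsto_zero_iff_norm_tendsto_zero.1 h2).congr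
      fun i => (B.nrm 1 (L i) _ f).symm))
  rw [add_zero] at h3
  exact h3.congr fun i => (h1 i).symm

lemma tc_locZ {σ : ℝ} {φ : V → Tn (Fin 4)} {K : Set V} (hσ : σ * σ = 1) (h : Ok φ)
    (hK : tsupport φ ⊆ K) (hp : ∀ u, φ (-u) = σ • φ u) : TCZ c (psi w φ) ∧ LocZ c σ K (psi w φ) :=
  ⟨P.tc _ h, B.loc_mono _ _ _ _ hK (P.loc σ φ hσ h hp)⟩

lemma g1Z {σ : ℝ} {X : V → Tn (Fin 3)} (hσ : σ * σ = 1) (hX : ContDiff ℝ ∞ X)
    (hp : ∀ u, X (-u) = -σ • X u) : DatZ c w σ (d1 X) (TPD.g1 w X) ∧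
    (∀ s L, 0 < s → IsLor L → gaZ c s L (TPD.g1 w (pf s L X)) = s • TPD.g1 w X) ∧
    ∀ X' (a : ℝ), ContDiff ℝ ∞ X' →
      TPD.g1 w (X + X') = TPD.g1 w X + TPD.g1 w X' ∧ TPD.g1 w (a • X) = a • TPD.g1 w X := by
  have ok := fun (η : EC) X hX => T.okb η.1 X η.2.1.1 (ec_ev η) hX
  have h1 := fun η : EC => tc_locZ T B P hσ (ok η X hX).1 (ok η X hX).2.1 fun u => funext fun ν => by
    simp [b1, dr_neg η.2.2, hp]
    ring
  refine ⟨⟨fun η => ?_, fun η => ?_, fun η η' => ?_⟩, fun s L hs hL => funext fun η => ?_,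
    fun X' a hX' => ⟨funext fun η => ?_, funext fun η => ?_⟩⟩
  · simpa [TPD.g1] using B.tc_smul (-1) _ (h1 η).1
  · simpa [TPD.g1] using B.loc_smul _ _ (-1) _ (h1 η).2
  · have h2 : b1 η.1 X = b1 (η.1 - η'.1) X + b1 η'.1 X := funext₂ fun u ν => by
      simp [b1, dr_sub η.2.1.1 η'.2.1.1, sub_mul]
    have h3 := P.c1 _ X (T.ec η η').1 (T.ec η η').2 hX
    rw [TPD.g1, TPD.g1, h2, P.add _ _ (T.okb _ X (T.ec η η').1 (sub_ev η η') hX).1 (ok η' X hX).1,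
      eq_neg_of_add_eq_zero_right h3]
    abel
  · rw [ga_applyZ, TPD.g1, pull_eq η hs hL, (T.b1 s L η.1 X η.2.1.1.1).1,
      P.smul _ _ (T.okp s L _ hs hL (ok η X hX).1), map_neg, map_smul, P.cov s L _ hs hL (ok η X hX).1]
    simp [TPD.g1]
  · have h2 : b1 η.1 (X + X') = b1 η.1 X + b1 η.1 X' := funext₂ fun u ν => by simp [b1, mul_add]
    rw [Pi.add_apply, TPD.g1, TPD.g1, TPD.g1, h2, P.add _ _ (ok η X hX).1 (ok η X' hX').1, neg_add]
  · have h2 : b1 η.1 (a • X) = a • b1 η.1 X := funext₂ fun u ν => by simp [b1, mul_left_comm]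
    rw [Pi.smul_apply, TPD.g1, TPD.g1, h2, P.smul _ _ (ok η X hX).1, smul_neg]

lemma g3Z {σ : ℝ} {Y : V → Tn (Fin 3)} (hσ : σ * σ = 1) (hY : ContDiff ℝ ∞ Y)
    (hp : ∀ u, Y (-u) = -σ • Y u) :
    (∀ η : EC, TCZ c (psi w (b3 η.1 Y)) ∧ LocZ c σ (tsupport η.1) (psi w (b3 η.1 Y))) ∧
    (∀ η η' : EC, psi w (b3 η.1 Y) - psi w (b3 η'.1 Y) + psi w (cs (η.1 - η'.1) (d3 Y)) =
      ∑ r, psi w (cs (η.1 - η'.1) (i3 r Y)) ∘L KDa.dS (bas r 1)) ∧
    (∀ s L, 0 < s → IsLor L → gaZ c s L (fun η => psi w (b3 η.1 (pf s L Y))) =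
      s • fun η : EC => psi w (b3 η.1 Y)) ∧
    ∀ Y' (a : ℝ) (η : EC), ContDiff ℝ ∞ Y' →
      psi w (b3 η.1 (Y + Y')) = psi w (b3 η.1 Y) + psi w (b3 η.1 Y') ∧
      psi w (b3 η.1 (a • Y)) = a • psi w (b3 η.1 Y) := by
  have ok := fun (η : EC) X hX => (T.okb η.1 X η.2.1.1 (ec_ev η) hX).2.2
  refine ⟨fun η => tc_locZ T B P hσ (ok η Y hY).1 (ok η Y hY).2 fun u => funext fun ν => ?_,
    fun η η' => ?_, fun s L hs hL => funext fun η => ?_, fun Y' a η hY' => ⟨?_, ?_⟩⟩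
  · simp [b3, dr_neg η.2.2, hp]
    ring
  · have h2 : b3 η.1 Y = b3 (η.1 - η'.1) Y + b3 η'.1 Y := funext₂ fun u ν => by
      simp [b3, dr_sub η.2.1.1 η'.2.1.1, sub_mul]
    rw [h2, P.add _ _ (T.okb _ Y (T.ec η η').1 (sub_ev η η') hY).2.2.1 (ok η' Y hY).1,
      add_sub_cancel_right, P.c3 _ Y (T.ec η η').1 (T.ec η η').2 hY]
  · rw [ga_applyZ, pull_eq η hs hL, (T.b1 s L η.1 Y η.2.1.1.1).2,
      P.smul _ _ (T.okp s L _ hs hL (ok η Y hY).1), map_smul, P.cov s L _ hs hL (ok η Y hY).1]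
    rfl
  · have h2 : b3 η.1 (Y + Y') = b3 η.1 Y + b3 η.1 Y' := funext₂ fun u ν => by simp [b3, mul_add]
    rw [h2, P.add _ _ (ok η Y hY).1 (ok η Y' hY').1]
  · have h2 : b3 η.1 (a • Y) = a • b3 η.1 Y := funext₂ fun u ν => by simp [b3, mul_left_comm]
    rw [h2, P.smul _ _ (ok η Y hY).1]

end Bp

variable {D : Type*} [NormedAddCommGroup D] [InnerProductSpace ℂ D] [GrD D]

theorem bp2_rowZ (c : CtxZ D) : T3Z c → TEN → BAZ c → ∀ w, SrcZ c w → BP1Z c w → BP2Z c w := by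
  intro t T B w _ P
  refine ⟨fun σ => ⟨fun _ => B.tc0, fun _ => B.loc0 _ _, fun η η' => ?_⟩,
    fun σ S S' x x' hS hS' h h' => ⟨fun η => B.tc_add _ _ (h.tc η) (h'.tc η),
      fun η => B.loc_add _ _ _ _ (h.loc η) (h'.loc η), fun η η' => ?_⟩,
    fun σ a S x hS h => ⟨fun η => B.tc_smul a _ (h.tc η), fun η => B.loc_smul _ _ a _ (h.loc η),
      fun η η' => ?_⟩,
    fun σ S S' x hS hS' hs h => ⟨h.tc, h.loc, fun η η' => ?_⟩,
    fun _ _ _ _ _ => Bp.dactZ T B P, fun _ _ _ => Bp.dhomZ T B,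
    fun _ _ _ _ _ _ _ => Bp.dcontZ B t.lie, fun _ _ => Bp.g1Z T B P, fun _ _ => Bp.g3Z T B P⟩
  · simp [Bp.cs_zero, Bp.psi_zero]
  · have : cs (η.1 - η'.1) (S + S') = cs (η.1 - η'.1) S + cs (η.1 - η'.1) S' :=
      funext fun u => by simp [cs]
    rw [this, P.add _ _ (Bp.okc T η η' hS) (Bp.okc T η η' hS'), ← h.coc, ← h'.coc,
      Pi.add_apply, Pi.add_apply, add_sub_add_comm]
  · have : cs (η.1 - η'.1) (a • S) = a • cs (η.1 - η'.1) S :=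
      funext fun u => by simp [cs, smul_comm a]
    rw [this, P.smul _ _ (Bp.okc T η η' hS), ← h.coc, Pi.smul_apply, Pi.smul_apply, smul_sub]
  · rw [h.coc]
    refine P.sy _ _ (Bp.okc T η η' hS) (Bp.okc T η η' hS') fun u => funext fun ν => ?_
    have := congrFun (hs u) ν
    simp only [cs, TPD.sy, Pi.smul_apply, smul_eq_mul] at this ⊢
    linear_combination (η.1 - η'.1) u * this

theorem bp_rowZ (c : CtxZ D) : T3Z c → TEN → BAZ c → ∀ w, SrcZ c w → BPZ c w := fun t T B w S =>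
  BPZ.of (bp1_rowZ c t T B w S) (bp2_rowZ c t T B w S (bp1_rowZ c t T B w S))

end

end Vale.Agent.P352X.TPD
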