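import Vale.Agent.P352X.TPD.CMP
import Vale.Agent.P352Z.P352X.TPD.Spec

open Vale.Agent.P352G

/-!
# P352X, block TPD: row CMP
-/

set_option linter.all false

open MeasureTheory Filter Topology
open scoped SchwartzMap ComplexConjugate ENNReal ContDiff

namespace Vale.Agent.P352X.TPD

open Vale.Agent.P352 Vale.Agent.P352.GF Vale.Agent.P352.BW Vale.Agent.P352.H246
open Vale.Agent.P352.H496 Vale.Agent.P352.H755 Vale.Agent.P352.H15
open UniformSpace (Completion)

noncomputable section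

namespace CmpZ

variable {E : Type*} [NormedAddCommGroup E] [NormedSpace ℝ E]

variable {D : Type*} [NormedAddCommGroup D] [InnerProductSpace ℂ D] [GrD D] (c : CtxZ D)

/-- the anti-time ordered product -/
def wm (w : WW D) : WW D := fun K M =>
  { toFun := fun G => ThZ c (w K M (_root_.Vale.Agent.P352X.TPD.Cmp.cj _ G))
    map_add' := fun F G => by simp
    map_smul' := fun a G => by simp [_root_.Vale.Agent.P352X.TPD.Cmp.cj_smul]
    cont := (ThZ c).continuous.comp ((w K M).continuous.comp (_root_.Vale.Agent.P352X.TPD.Cmp.cj _).continuous) }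

lemma wm_apply (w : WW D) (K M : I2) (G : S2) : wm c w K M G = ThZ c (w K M (_root_.Vale.Agent.P352X.TPD.Cmp.cj _ G)) := rfl

end CmpZ

open Cmp

variable {D : Type*} [NormedAddCommGroup D] [InnerProductSpace ℂ D] [GrD D]

theorem cmp_rowZ (c : CtxZ D) (b : B0Z c) : CMPZ c := fun wp tp hl hw => by
  refine ⟨_root_.Vale.Agent.P352X.TPD.CmpZ.wm c wp, ⟨fun I J f g F e h => ?_, fun I J F G e => ?_, fun I J => ?_,
    fun s L a I J F G hs hL e => ?_⟩, fun x y h => ?_, fun I J F => ?_⟩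
  · rw [_root_.Vale.Agent.P352X.TPD.CmpZ.wm_apply, tp.swap I J _ (SchwartzMap.compCLMOfContinuousLinearEquiv ℂ
      (ContinuousLinearEquiv.prodComm ℝ V V) (cj _ F)) fun _ _ => rfl,
      tp.fac J I (cj V g) (cj V f) _ (fun x y => ?_) fun x hx y hy => ?_, if_pos rfl, b.ba.th_two,
      bar_cj, bar_cj, if_neg Bool.false_ne_true]
    · change conj (F (-y, -x)) = _
      rw [e, map_mul, mul_comm]
      rfl
    · have := h _ (cj_supp hy) _ (cj_supp hx)
      rwa [neg_sub_neg] at this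
  · rw [_root_.Vale.Agent.P352X.TPD.CmpZ.wm_apply, _root_.Vale.Agent.P352X.TPD.CmpZ.wm_apply, tp.swap I J (cj _ F) (cj _ G) fun x y => congrArg conj (e (-x) (-y))]
  · ext G
    rw [_root_.Vale.Agent.P352X.TPD.CmpZ.wm_apply, _root_.Vale.Agent.P352X.TPD.CmpZ.wm_apply, tp.ind]
  · obtain ⟨κ, h⟩ := tp.cov s L (-a) I J (cj _ F) (cj _ G) hs hL fun x y => by
      have k : ∀ x, sim s L a (-x) = -sim s L (-a) x := fun x => funext fun n => by
        simp [sim]
        ring
      change conj (G (-x, -y)) = conj (F (-_, -_))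
      rw [e, k, k]
    refine ⟨conj κ, ?_⟩
    rw [_root_.Vale.Agent.P352X.TPD.CmpZ.wm_apply, h, map_add, map_sum, ContinuousLinearMap.map_smulₛₗ, b.ba.th_om]
    congr 1
    refine Finset.sum_congr rfl fun K _ => ?_
    rw [map_sum]
    refine Finset.sum_congr rfl fun M _ => ?_
    rw [ContinuousLinearMap.map_smulₛₗ, ← Ug_apply _ hs hL, ← Ug_apply _ hs hL,
      b.ba.th_ug _ _ _ _ hs hL (.inl (hw _ _ _)), neg_neg, _root_.Vale.Agent.P352X.TPD.CmpZ.wm_apply]
    simp [L2]
  · obtain ⟨a, a', v, ha, ha', hp, hy, hx⟩ := Ap.sep_pts (z := x) (y := y) h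
    obtain ⟨d, d0, hd⟩ := Metric.isOpen_iff.1 (Ap.open_wdg _ _ _) x hx
    obtain ⟨d', d1, hd'⟩ := Metric.isOpen_iff.1 (Ap.open_wdg _ _ _) y hy
    refine ⟨min d d', lt_min d0 d1, fun I J K f G G' hf hG e => ?_⟩
    have hf' : In (Wdg a' a v) (ev f) := ⟨⟨f, rfl⟩, Metric.isCompact_of_isClosed_isBounded
      (isClosed_tsupport _) (Metric.isBounded_ball.subset hf),
      hf.trans ((Metric.ball_subset_ball (min_le_left _ _)).trans hd)⟩
    have ge : ∀ g, IsTest g → Gm D ((c.T I.1 I.2 g c.Q.vac : D) : Completion D) =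
        ((c.T I.1 I.2 g c.Q.vac : D) : Completion D) := fun g hg => by
      rw [b.grp.gext, ← b.grp.gT _ _ _ _ hg, c.hN.gvac]
    have h1 := pair_ev b.jc ha ha' hp (hl a a' v J K G (cj _ G') ha ha' hp
      (Metric.isCompact_of_isClosed_isBounded
      (isClosed_tsupport _) (Metric.isBounded_ball.subset hG))
      (hG.trans ((Metric.ball_subset_ball (min_le_right _ _)).trans
        ((ball_prod_same y y d').ge.trans (Set.prod_mono hd' hd'))))
      fun x z => by rw [cj_apply, e]; simp)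
      (Pr.of_afs (Grp.afs_TZ c.hN c.hT I.1 I.2 hf') c.Q.vac)
      (ge _ hf'.1) (ge _ (Ap.sw_star hf'.1))
    have p : ∀ g, IsTest g → inner ℂ c.Om ((c.T I.1 I.2 g c.Q.vac : D) : Completion D) = 0 :=
      fun g hg => (Completion.inner_coe _ _).trans (b.grp.perp _ _ g hg)
    obtain ⟨κ, h2⟩ := (b.ba.pp (wp J K G)).2.2.1
    obtain ⟨κ', h3⟩ := (b.ba.pp (ThZ c (wp J K (cj _ G')))).2.2.1
    rw [_root_.Vale.Agent.P352X.TPD.CmpZ.wm_apply, h2, h3, ← (b.ba.pp _).2.1, inner_add_left, inner_add_right, inner_smul_left,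
      inner_smul_right, h1, p _ hf'.1,
      inner_eq_zero_symm.1 (p (bar (ev f)) (Ap.sw_star hf'.1)), mul_zero,
      mul_zero]
  · rw [_root_.Vale.Agent.P352X.TPD.CmpZ.wm_apply, b.ba.th_gam, hw]

end

end Vale.Agent.P352X.TPD
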