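import Vale.Agent.P352X.TPD.CRL
import Vale.Agent.P352Z.P352X.TPD.Spec

open Vale.Agent.P352G

/-!
# P352X, block TPD: row CRL (helper39)
-/

set_option linter.all false

open MeasureTheory Filter Topology
open scoped SchwartzMap ComplexConjugate ENNReal ContDiff

namespace Vale.Agent.P352X.TPD

open Vale.Agent.P352 Vale.Agent.P352.GF Vale.Agent.P352.BW Vale.Agent.P352.H246
open Vale.Agent.P352.H496 Vale.Agent.P352.H755 Vale.Agent.P352.H15
open UniformSpace (Completion)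
open Complex (I)

noncomputable section

namespace Crl

variable {D : Type*} [NormedAddCommGroup D] [InnerProductSpace ℂ D] [GrD D] {c : CtxZ D}

lemma tc_crlZ (b : B0Z c) {n : V →ₗ[ℝ] TT D} (h : ∀ v, TCZ c (n v)) (v w : V) :
    TCZ c (crl n v w) := by
  rw [crl, sub_eq_add_neg, ← neg_one_smul ℝ]
  exact b.ba.tc_add _ _ (b.ba.tc_der _ _ (h v)) (b.ba.tc_smul _ _ (b.ba.tc_der _ _ (h w)))

lemma tc_dcrZ (b : B0Z c) {n : V →ₗ[ℝ] TT D} (h : ∀ v, TCZ c (n v)) (v : V) : TCZ c (dcr n v) := by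
  rw [dcr_eq]
  exact Finset.sum_induction _ _ (b.ba.tc_add) b.ba.tc0 fun m _ =>
    b.ba.tc_smul _ _ (b.ba.tc_der _ _ (tc_crlZ b h _ _))

/-- covariance of the curl -/
def CvZ (c : CtxZ D) (n : V →ₗ[ℝ] TT D) : Prop := ∀ s L v v', 0 < s → IsLor L →
  actZ c s L (crl n v v') = crl n (sim 1 L 0 v) (sim 1 L 0 v')

lemma act_dcrZ (b : B0Z c) {n : V →ₗ[ℝ] TT D} (h : CvZ c n) {s : ℝ} {L : Ix → V} (hs : 0 < s)
    (hL : IsLor L) (v : V) : actZ c s L (dcr n v) = dcr n (sim s L 0 v) := by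
  rw [sim_smul, dcr_smul, dcr_eq n v, dcr_eq n (sim 1 L 0 v),
    ← eta_inv b.ten (cD (cB n (sim 1 L 0 v))) hL, map_sum, Finset.smul_sum]
  refine Finset.sum_congr rfl fun m _ => ?_
  rw [map_smul, smul_comm]
  congr 1
  change actZ c s L (crl n v (bas m 1) ∘L KDa.dS (bas m 1)) = _
  rw [b.ba.der s L _ _ hs hL, h s L _ _ hs hL]
  rfl

lemma mu_actZ {F : V → ℂ} (hF : Measurable F) {x : TT D} (h : MuZ c F x) {L : Ix → V}
    (hL : IsLor L) : MuZ c (fun p => F (Kin.du 1 L p)) (actZ c 1 L x) := by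
  obtain ⟨m, C, h⟩ := h
  obtain ⟨C', m', hC', h'⟩ := ST.clm_sn' ((pS 1 L).restrictScalars ℝ) m
  refine ⟨m', |C| * C', fun f => ?_⟩
  have e := Kin.nu_UZ c.bR c.ct one_pos hL 0 (x (pS 1 L f))
  have h1 := h (pS 1 L f)
  rw [show c.nu (x (pS 1 L f)) = _ from e.symm,
    lintegral_map (by fun_prop) (Kin.du_meas 1 L)] at h1
  rw [act_applyZ, Ug_apply _ one_pos hL]
  refine h1.trans (ENNReal.ofReal_le_ofReal ?_)
  rw [← sq_abs, abs_mul, abs_of_nonneg (Lie.sn_nonneg _ _), mul_assoc]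
  refine pow_le_pow_left₀ (mul_nonneg (abs_nonneg _) (Lie.sn_nonneg _ _))
    (mul_le_mul_of_nonneg_left ?_ (abs_nonneg _)) 2
  rw [Api4.sn_eq, Api4.sn_eq]
  exact h' f

theorem mu_aZ (b : B0Z c) (cv : CVXZ c) {n : V →ₗ[ℝ] TT D} (h : ∀ v, TCZ c (n v)) (hc : CvZ c n) :
    MuZ c (fun p => ((mu p * be p)⁻¹ : ℝ)) (dcr n va) := by
  obtain ⟨κ, hκ, e⟩ := cv (dcr n va) 1 0 (tc_dcrZ b h va)
    (fun w => by rw [act_dcrZ b hc one_pos (b.ten.lg w).1, (b.ten.lg w).2.1, gap_a])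
    (fun r s hr hs => by
      rw [act_dcrZ b hc (Real.sqrt_pos.2 (mul_pos hr hs)) (b.ten.lsc r s hr hs).1,
        (b.ten.lsc r s hr hs).2.1, scp_a, dcr_smul, Real.rpow_one, Real.rpow_zero, mul_one])
    (by norm_num)
  obtain ⟨m, C, hb⟩ := l2
  refine ⟨m, Real.sqrt κ * C, fun f => ?_⟩
  have hm := (cont_ft (f := ev f) ⟨f, rfl⟩).measurable
  rw [e f, lintegral_withDensity_eq_lintegral_mul _ (by fun_prop) (by fun_prop), mul_assoc, mul_pow,
    Real.sq_sqrt hκ, ENNReal.ofReal_mul hκ]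
  refine le_trans ?_ (mul_le_mul_right (hb f) _)
  rw [← lintegral_const_mul _ (by fun_prop)]
  refine le_trans (lintegral_mono_ae ?_) (lintegral_mono' Measure.restrict_le_self le_rfl)
  filter_upwards [ae_restrict_mem meas_Fc] with p hp
  obtain ⟨h1, h2⟩ := (mem_Fc p).1 hp
  rw [Pi.mul_apply, ← ENNReal.ofReal_mul (by positivity), ← ENNReal.ofReal_mul hκ]
  refine ENNReal.ofReal_le_ofReal (le_of_eq ?_)
  rw [Complex.norm_real, Real.norm_eq_abs, sq_abs]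
  norm_num
  field_simp

theorem mu_bZ (b : B0Z c) (cv : CVXZ c) {n : V →ₗ[ℝ] TT D} (h : ∀ v, TCZ c (n v)) (hc : CvZ c n) :
    MuZ c (fun p => ((mu p * al p)⁻¹ : ℝ)) (dcr n vb) := by
  have := mu_actZ (by fun_prop) (mu_aZ b cv h hc) b.ten.sw.1
  rw [act_dcrZ b hc one_pos b.ten.sw.1, sw_a b.ten] at this
  convert this using 4 with p
  rw [mu, mu, be, Kin.du_sq _ b.ten.sw.1, Kin.du_pair' _ b.ten.sw.1, sw_a b.ten, one_pow, one_mul,
    al]

/-- the massless part of the curl -/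
def ZZ (c : CtxZ D) (n : V →ₗ[ℝ] TT D) : V →ₗ[ℝ] V →ₗ[ℝ] TT D :=
  (cB n).compr₂ ⟨⟨fun x => c.bt.P {p | mu p = 0} ∘L x, ContinuousLinearMap.comp_add _⟩,
    fun a x => ContinuousLinearMap.comp_smul _ a x⟩

lemma Z_applyZ (n : V →ₗ[ℝ] TT D) (v w : V) (f : Sch) :
    ZZ c n v w f = c.bt.P {p | mu p = 0} (crl n v w f) := rfl

lemma Z_swapZ (n : V →ₗ[ℝ] TT D) (v w : V) : ZZ c n v w = -ZZ c n w v := by
  ext f
  simp [Z_applyZ, crl]

lemma Z_lorZ {n : V →ₗ[ℝ] TT D} (hc : CvZ c n) {L : Ix → V} (hL : IsLor L) {v w : V}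
    (h : ZZ c n v w = 0) : ZZ c n (sim 1 L 0 v) (sim 1 L 0 w) = 0 := by
  ext f
  have e := Kin.U_PZ c.bR c.ct one_pos hL 0 meas0 (crl n v w (pS 1 L f))
  rw [show Kin.du 1 L ⁻¹' {p | mu p = 0} = {p | mu p = 0} from Set.ext fun p => by
    simp only [Set.mem_preimage, Set.mem_setOf_eq, mu, Kin.du_sq _ hL, one_pow, one_mul]] at e
  rw [Z_applyZ, ← hc 1 L v w one_pos hL, act_applyZ, Ug_apply _ one_pos hL]
  refine e.symm.trans ?_
  rw [← Ug_apply _ one_pos hL]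
  exact (congrArg (Ug c.Q 1 L 0) (DFunLike.congr_fun h (pS 1 L f))).trans (map_zero _)

lemma Z_aZ (b : B0Z c) (cv : CVXZ c) {n : V →ₗ[ℝ] TT D} (h : ∀ v, TCZ c (n v)) (hc : CvZ c n)
    (i : Fin 2) : ZZ c n va (ex i) = 0 := by
  have aa : cB n va va = 0 := sub_self _
  obtain ⟨κ, hκ, e⟩ := cv (crl n va (ex i)) (1 / 2) (-1 / 2) (tc_crlZ b h _ _)
    (fun w => by
      rw [hc _ _ _ _ one_pos (b.ten.lg w).1, (b.ten.lg w).2.1, (b.ten.lg w).2.1, gap_a,
        show gap w (ex i) = ex i + w i • va from null_ext (by simp) (by simp) (by simp),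
        ← cB_apply, map_add, map_smul, aa, smul_zero, add_zero, cB_apply])
    (fun r s hr hs => by
      have p := Real.sqrt_pos.2 (mul_pos hr hs)
      have k : ∀ z, sim 1 (Lsc r s) 0 z = (Real.sqrt (r * s))⁻¹ • scp r s z := fun z => by
        rw [← (b.ten.lsc r s hr hs).2.1, sim_smul (s := Real.sqrt _), inv_smul_smul₀ p.ne']
      rw [hc _ _ _ _ p (b.ten.lsc r s hr hs).1, k, k, scp_a,
        show scp r s (ex i) = Real.sqrt (r * s) • ex i from null_ext (by simp) (by simp) (by simp),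
        inv_smul_smul₀ p.ne', smul_smul, ← cB_apply, map_smul, LinearMap.smul_apply, cB_apply]
      congr 1
      rw [neg_div, Real.rpow_neg hs.le, ← Real.sqrt_eq_rpow, ← Real.sqrt_eq_rpow,
        Real.sqrt_mul hr.le]
      have := Real.sqrt_pos.2 hr
      have := Real.sqrt_pos.2 hs
      field_simp
      exact (Real.sq_sqrt hr.le).symm)
    (by norm_num)
  ext f
  refine (c.bt.nu_eq_zero meas0 (crl n va (ex i) f)).1 ?_
  refine (e f ▸ withDensity_absolutelyContinuous _ _ :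
    c.nu (crl n va (ex i) f) ≪ volume.restrict Fc) ?_
  rw [Measure.restrict_apply meas0, show {p : V | mu p = 0} ∩ Fc = ∅ from
    Set.eq_empty_of_forall_notMem fun p hp => ((mem_Fc p).1 hp.2).2.ne' hp.1, measure_empty]

theorem Z_zeroZ (b : B0Z c) (cv : CVXZ c) {n : V →ₗ[ℝ] TT D} (h : ∀ v, TCZ c (n v)) (hc : CvZ c n) :
    ZZ c n = 0 := by
  have a := Z_aZ b cv h hc
  have sx : ∀ i, sim 1 sw 0 (ex i) = (![-1, 1] i : ℝ) • ex i := fun i => by
    rw [ex, tv, b.ten.sw.2]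
    exact null_ext (by simp) (by simp) (by ext j; fin_cases i <;> fin_cases j <;> simp [e2, tv, pt])
  have a' : ∀ i, ZZ c n vb (ex i) = 0 := fun i => by
    have := Z_lorZ hc b.ten.sw.1 (a i)
    rw [sw_a b.ten, sx, map_smul] at this
    exact (smul_eq_zero.1 this).resolve_left (by fin_cases i <;> simp)
  have k : ∀ (α β : ℝ) i, ZZ c n (α • va + β • vb) (ex i) = 0 := fun α β i => by
    simp only [map_add, map_smul, LinearMap.add_apply, LinearMap.smul_apply, a, a', smul_zero,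
      add_zero]
  have e0 : (2⁻¹ : ℝ) • va + (1 : ℝ) • vb = bas 0 1 := by
    ext m; fin_cases m <;> norm_num [va, vb, bas]
  have e1 : (2⁻¹ : ℝ) • va + (-1 : ℝ) • vb = bas 1 1 := by
    ext m; fin_cases m <;> norm_num [va, vb, bas]
  have h02 := ex_0 ▸ e0 ▸ k _ _ 0
  have h03 := ex_1 ▸ e0 ▸ k _ _ 1
  have h12 := ex_0 ▸ e1 ▸ k _ _ 0
  have h13 := ex_1 ▸ e1 ▸ k _ _ 1
  have h01 : ZZ c n (bas 0 1) (bas 1 1) = 0 := Z_lorZ hc b.ten.cyc.1 h03 ▸ by
    simp only [sim_bas]; rfl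
  have h23 : ZZ c n (bas 2 1) (bas 3 1) = 0 := Z_lorZ hc b.ten.cyc.1 h12 ▸ by
    simp only [sim_bas]; rfl
  have hd : ∀ v, ZZ c n v v = 0 := fun v => by
    ext f
    simp [Z_applyZ, crl]
  have hs : ∀ {v w}, ZZ c n v w = 0 → ZZ c n w v = 0 := fun e => by rw [Z_swapZ, e, neg_zero]
  have all : ∀ m l, ZZ c n (bas m 1) (bas l 1) = 0 := fun m l => by
    fin_cases m <;> fin_cases l
    exacts [hd _, h01, h02, h03, hs h01, hd _, h12, h13, hs h02, hs h12, hd _, h23, hs h03, hs h13,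
      hs h23, hd _]
  refine LinearMap.ext₂ fun v w => ?_
  rw [bas_sum v, bas_sum w]
  simp only [map_sum, map_smul, LinearMap.sum_apply, LinearMap.smul_apply, all, smul_zero,
    Finset.sum_const_zero, LinearMap.zero_apply]

end Crl

variable {D : Type*} [NormedAddCommGroup D] [InnerProductSpace ℂ D] [GrD D]

/-- **row CRL** -/
theorem crl_rowZ (c : CtxZ D) : B0Z c → CVXZ c → CRLZ c := fun b cv n h hc =>
  ⟨Crl.mu_aZ b cv h hc, Crl.mu_bZ b cv h hc, fun v w f => by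
    rw [← Crl.Z_applyZ, Crl.Z_zeroZ b cv h hc]; rfl⟩

end

end Vale.Agent.P352X.TPD
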