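import Vale.Agent.P352X.R.WK.Ker
import Vale.Agent.P352Z.P352X.R.TWO.Rho
import Vale.Agent.P352Z.P352X.TPD.Spec

open Vale.Agent.P352G

/-!
# P352X, block TPD: rows CVX and MUL (helper76)
-/

set_option linter.all false

open MeasureTheory Filter Topology
open scoped SchwartzMap ComplexConjugate ENNReal ContDiff

namespace Vale.Agent.P352X.TPD

open Vale.Agent.P352 Vale.Agent.P352.GF Vale.Agent.P352.BW Vale.Agent.P352.H246
open Vale.Agent.P352.H496 Vale.Agent.P352.H755 Vale.Agent.P352.H15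
open UniformSpace (Completion)
open Complex (I)

noncomputable section

variable {D : Type*} [NormedAddCommGroup D] [InnerProductSpace ℂ D] [GrD D] (c : CtxZ D)

/-- **row CVX** -/
theorem cvx_rowZ : B0Z c → CVXZ c := fun b x α β hx hg hs hβ => by
  have e0 : ev (sch Two.g0) = Two.g0 := Ap.ev_sch Two.g0_in.1
  have rel : ∀ f : Sch, c.bt.Phi (ft Two.g0) (x f) = c.bt.Phi (ft (ev f)) (x (sch Two.g0)) :=
    fun f => by simpa only [e0] using b.ba.tc_rel x f (sch Two.g0) hx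
  have key : ∀ {s : ℝ} {L : Ix → V} {A : V → V}, 0 < s → IsLor L → (∀ z, sim s L 0 z = A z) →
      (sch fun z => Two.g0 (A z)) = pS s L (sch Two.g0) := fun hs hL h =>
    Ap.sch_eq fun z => by
      rw [pS_apply hs hL, h]
      exact congrFun e0 _
  have h : Two.CvZ c (fun f => x (sch f)) α β := by
    refine ⟨fun f hf => ?_, fun w => ?_, fun r s hr hs' => ?_, hx.perp _⟩
    · simpa only [Ap.ev_sch hf.1] using rel (sch f)
    · rw [key one_pos (b.ten.lg w).1 (b.ten.lg w).2.1]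
      exact congrArg (fun y : TT D => y (sch Two.g0)) (hg w)
    · rw [key (Real.sqrt_pos.2 (mul_pos hr hs')) (b.ten.lsc r s hr hs').1
        (b.ten.lsc r s hr hs').2.1]
      exact congrArg (fun y : TT D => y (sch Two.g0)) (hs r s hr hs')
  obtain ⟨κ, hκ⟩ := h.cls hβ
  refine ⟨κ, κ.2, fun f => ?_⟩
  have hb := Two.bd_ft (f := ev f) ⟨f, rfl⟩
  rw [Two.nu_eqZ hb (rel f), hκ, Two.mm, ENNReal.smul_def,
    ← withDensity_smul _ (Two.meas_pw2 _ _),
    ← withDensity_mul _ ((Two.meas_pw2 _ _).const_smul _) (Two.meas_sq2 hb.1)]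
  refine withDensity_congr_ae ((Two.ae_fc _).mono fun p hp => ?_)
  obtain ⟨h1, h2⟩ := (mem_Fc p).1 hp
  simp only [Pi.mul_apply, Pi.smul_apply, smul_eq_mul, Two.pw2, Two.sq2]
  rw [← ENNReal.ofReal_coe_nnreal, ← ENNReal.ofReal_mul κ.coe_nonneg,
    ← ENNReal.ofReal_mul (by positivity), ← mul_assoc (κ : ℝ)]

/-- **row MUL** -/
theorem mul_rowZ : B0Z c → MULZ c := fun b F x hx hF ⟨m, C, h⟩ => by
  have h1 : ∀ f, c.bt.Dom F (x f) ∧ ‖c.bt.Psi F (x f)‖ ≤ |C| * ST.sn V ℂ m f := fun f =>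
    SN.Calc.dom_of_lintegral hF (mul_nonneg (abs_nonneg C) (apply_nonneg _ _)) (by
      rw [mul_pow, sq_abs, ← mul_pow, ← Api4.sn_eq]
      exact h f)
  refine ⟨Wk.mkC
    { toFun := fun f => c.bt.Psi F (x f)
      map_add' := fun f g => by rw [map_add, SN.Calc.Psi_add_vec (h1 f).1 (h1 g).1]
      map_smul' := fun a f => by rw [map_smul, SN.Calc.Psi_smul_vec a (h1 f).1, RingHom.id_apply] }
    fun f => (h1 f).2, ⟨fun a f => ?_, fun f => ?_, fun f => ?_⟩, fun f => ⟨(h1 f).1, rfl⟩⟩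
  · show Ut c.Q a (c.bt.Psi F (x f)) = c.bt.Psi F (x (ST.tsl a f))
    have hb : SN.Bd (SN.ch (fun p y : V => mdot p y) a) :=
      SN.Bd.expI (by unfold GF.mdot; fun_prop)
    rw [← hx.tra, ← c.bt.Phi_ch, ← c.bt.Phi_ch, SN.Calc.Psi_Phi_comm (h1 f).1 hb]
  · show inner ℂ c.Om (c.bt.Psi F (x f)) = 0
    have h2 := (c.bt.cov_Psi c.bt SN.isPair_mdot measurable_id (A := id) (fun _ _ => rfl) (PpZ c)
      (fun y => ((b.ba.pp (x f)).2.2.2.2 1 GF.one y).symm) (h1 f).1).2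
    rw [(b.ba.pp (x f)).2.2.2.1 (hx.perp f)] at h2
    exact (congrArg (inner ℂ c.Om) h2).trans (b.ba.pp _).1
  · show Gm D (c.bt.Psi F (x f)) = c.bt.Psi F (x f)
    have h2 := (c.bt.cov_Psi c.bt SN.isPair_mdot measurable_id (A := id) (fun _ _ => rfl) (Gm D)
      (fun y => DFunLike.congr_fun (b.grp.gU 1 GF.one y) (x f)) (h1 f).1).2
    rw [hx.ev f] at h2
    exact h2.symm

end

end Vale.Agent.P352X.TPD
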