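import Vale.Agent.P352X.TPD.Ut
import Vale.Agent.P352Z.P352X.TPD.Spec

open Vale.Agent.P352G

/-!
# P352X, block TPD: small common lemmas
-/

set_option linter.all false

open MeasureTheory Filter Topology
open scoped SchwartzMap ComplexConjugate ENNReal ContDiff

namespace Vale.Agent.P352X.TPD

open Vale.Agent.P352 Vale.Agent.P352.GF Vale.Agent.P352.BW Vale.Agent.P352.H246
open Vale.Agent.P352.H496 Vale.Agent.P352.H755 Vale.Agent.P352.H15
open UniformSpace (Completion)
open Complex (I)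

noncomputable section

variable {D : Type*} [NormedAddCommGroup D] [InnerProductSpace ℂ D] [GrD D] {c : CtxZ D} {w : WW D}

/-- dilations commute with everything -/
lemma ga_dilZ (b : B0Z c) {s : ℝ} {L : Ix → V} (hs : 0 < s) (hL : IsLor L) (x : Fam D) :
    gaZ c s L x = gaZ c 1 L (gaZ c s GF.one x) ∧ gaZ c s L x = gaZ c s GF.one (gaZ c 1 L x) := by
  rw [b.ba.gmul _ _ _ _ _ one_pos hs hL (lor_one b.ten) (.inr (.inr (.inl rfl))),
    b.ba.gmul _ _ _ _ _ hs one_pos (lor_one b.ten) hL (.inr (.inl rfl)), one_mul, mul_one, cm_one, one_cm]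
  exact ⟨rfl, rfl⟩

lemma ga_cmZ (b : B0Z c) {L L' : Ix → V} (hL : IsLor L) (hL' : IsLor L') {x : Fam D}
    (hx : ∀ η, EvT (x η)) : gaZ c 1 L (gaZ c 1 L' x) = gaZ c 1 (T.cm L' L) x := by
  rw [b.ba.gmul _ _ _ _ _ one_pos one_pos hL hL' (.inl hx), one_mul]

/-- differences of data -/
lemma BPZ.dsub (P : BPZ c w) {σ : ℝ} {S : V → Tn (Fin 4)} {x x' : Fam D} (hS : ContDiff ℝ ∞ S)
    (h : DatZ c w σ S x) (h' : DatZ c w σ S x') : DatZ c w σ 0 (x - x') := by
  have := P.dadd σ _ _ _ _ hS (hS.const_smul (-1 : ℝ)) h (P.dsmul σ (-1) S x' hS h')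
  rwa [show (S + fun u => (-1 : ℝ) • S u) = 0 from funext fun u => by simp, neg_one_smul,
    ← sub_eq_add_neg] at this

/-- linear combinations of data for `h0` -/
lemma BPZ.dsum (P : BPZ c w) (t : TEN) {ι : Type*} (s : Finset ι) (a : ι → ℝ) (k : ι → Tn (Fin 2))
    (x : ι → Fam D) (h : ∀ i ∈ s, DatZ c w 1 (h0 (k i)) (x i)) :
    DatZ c w 1 (h0 (∑ i ∈ s, a i • k i)) (∑ i ∈ s, a i • x i) := by
  classical
  induction s using Finset.induction_on with
  | empty =>
    have := ((t.h0s 0).2.2 0 0).2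
    rw [zero_smul, zero_smul] at this
    simpa only [Finset.sum_empty, this] using P.dzero 1
  | insert i s hi ih =>
    rw [Finset.sum_insert hi, Finset.sum_insert hi, ((t.h0s _).2.2 _ 0).1]
    refine P.dadd 1 _ _ _ _ (t.h0s _).1 (t.h0s _).1 ?_ (ih fun j hj => h j (by simp [hj]))
    rw [((t.h0s _).2.2 0 _).2]
    exact P.dsmul 1 _ _ _ (t.h0s _).1 (h i (by simp))

/-- the lowest weight is seen in the limit -/
lemma wt_limZ (b : B0Z c) {s : Finset ℤ} {z : ℤ → TT D} {y : TT D} {m : ℤ}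
    (hz : ∀ n t, actZ c 1 (Lb t) (z n) = Real.exp (n * t) • z n)
    (h : ∀ f, Tendsto (fun t : ℝ => Real.exp (-(m * t)) • actZ c 1 (Lb t) (∑ n ∈ s, z n) f) atBot
      (𝓝 (y f))) : (∀ n ∈ s, n < m → z n = 0) ∧ (m ∈ s → z m = y) ∧ (m ∉ s → y = 0) := by
  have k := fun ξ f => b.exp.lim s (fun n => inner ℂ ξ (z n f)) (inner ℂ ξ (y f)) m
    ((tendsto_const_nhds.inner (h f)).congr fun t => by
      simp only [map_sum, hz, ContinuousLinearMap.sum_apply, ContinuousLinearMap.smul_apply,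
        Finset.smul_sum, smul_smul, inner_sum, ← Real.exp_add]
      refine Finset.sum_congr rfl fun n _ => ?_
      rw [← Complex.coe_smul, inner_smul_right, Complex.real_smul]
      congr 3
      ring)
  exact ⟨fun n hn h1 => tt_ext fun ξ f => by simpa using (k ξ f).1 n hn h1,
    fun h1 => tt_ext fun ξ f => (k ξ f).2.1 h1, fun h1 => tt_ext fun ξ f => by
      simpa using (k ξ f).2.2 h1⟩

end

end Vale.Agent.P352X.TPD
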