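import Vale.Agent.P352X.TPD.DIV
import Vale.Agent.P352Z.P352X.TPD.Ut

open Vale.Agent.P352G

/-!
# P352X, block TPD: row DIV
-/

set_option linter.all false

open MeasureTheory Filter Topology
open scoped SchwartzMap ComplexConjugate ENNReal ContDiff

namespace Vale.Agent.P352X.TPD

open Vale.Agent.P352 Vale.Agent.P352.GF Vale.Agent.P352.BW Vale.Agent.P352.H246
open Vale.Agent.P352.H496 Vale.Agent.P352.H755 Vale.Agent.P352.H15
open UniformSpace (Completion)
open Complex (I)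

noncomputable section

namespace Dvr

variable {D : Type*} [NormedAddCommGroup D] [InnerProductSpace ℂ D] [GrD D] {c : CtxZ D}

lemma dvg_actZ (b : B0Z c) {s : ℝ} {L : Ix → V} (hs : 0 < s) (hL : IsLor L) {n n' : V →ₗ[ℝ] TT D}
    (h : ∀ v, s • actZ c s L (n' v) = n (sim 1 L 0 v)) :
    actZ c s L (dvg fun v => n' v) = dvg fun v => n v := by
  have e : ∀ m, sim 1 L 0 (bas m 1) = ∑ a, L m a • bas a 1 := fun m => funext fun a => by
    simp [sim, bas, Finset.sum_apply]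
  have e1 : ∀ m, actZ c s L (n' (bas m 1) ∘L KDa.dS (bas m 1)) =
      ∑ a, ∑ a', (L m a * L m a') • gd (n (bas a 1)) (bas a' 1) := fun m => by
    rw [b.ba.der s L _ _ hs hL, ← ContinuousLinearMap.smul_comp, h, e, map_sum,
      ContinuousLinearMap.finsetSum_comp]
    refine Finset.sum_congr rfl fun a _ => ?_
    rw [map_smul, ContinuousLinearMap.smul_comp]
    change L m a • gd _ _ = _
    simp only [map_sum, map_smul, Finset.smul_sum, smul_smul]
  simp only [dvg, map_sum, map_smul, e1, Finset.smul_sum, smul_smul]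
  rw [Finset.sum_comm]
  refine Finset.sum_congr rfl fun a _ => ?_
  rw [Finset.sum_comm]
  simp only [← Finset.sum_smul, ← mul_assoc]
  have e2 := fun a' => (b.ten.tra L hL).1 a a'
  simp only [GF.mdot] at e2
  simp [e2, bas, gd]

lemma P_ugZ (b : B0Z c) {s : ℝ} {L : Ix → V} (hs : 0 < s) (hL : IsLor L) {S : Set ℝ}
    (hS : MeasurableSet S) (h : ∀ t, s ^ 2 * t ∈ S ↔ t ∈ S) (z : Completion D) :
    c.bt.P (mu ⁻¹' S) (Ug c.Q s L 0 z) = Ug c.Q s L 0 (c.bt.P (mu ⁻¹' S) z) := by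
  obtain ⟨M, hM, -, e⟩ := b.ten.inv L hL
  have e1 : ∀ p, sim 1 L 0 (sim 1 M 0 p) = p := fun p => by rw [← T.sim_cm, e, sim_id]
  have m0 : Measurable (mu : V → ℝ) := by unfold mu GF.mdot; fun_prop
  refine Eq.symm ((c.bt.cov c.bt SN.isPair_mdot (k := fun p => s • sim 1 M 0 p)
    (A := sim s L 0) (by unfold sim; fun_prop) (fun p y => ?_) _ (w := Ug c.Q s L 0 z)
    (fun y => ?_) (SN.Bd.ind (m0 hS))).trans ?_)
  · rw [sim_s s, mdot_smul, H755.mdot_comm, mdot_smul, ← mdot_sim hL, e1, H755.mdot_comm]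
  · rw [← ContinuousLinearMap.mul_apply, ← ContinuousLinearMap.mul_apply, Ut, Ut,
      b.grp.mul _ _ _ _ _ _ hs one_pos hL (lor_one b.ten) (.inr (.inl rfl)),
      b.grp.mul _ _ _ _ _ _ one_pos hs (lor_one b.ten) hL (.inl rfl), mul_one, one_mul, sim_one',
      zero_add]
    congr 2
    exact (one_cm L).trans (cm_one L).symm
  · refine congrArg (c.bt.Phi · _) (funext fun p => ?_)
    have e2 : mu (s • sim 1 M 0 p) = s ^ 2 * mu p := by
      rw [mu, mdot_smul, H755.mdot_comm, mdot_smul, mdot_sim hM, mu, pow_two, mul_assoc]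
    classical
    simp only [Set.indicator_apply, Set.mem_preimage, e2, h]

lemma pot_actZ (b : B0Z c) {s : ℝ} {L : Ix → V} (hs : 0 < s) (hL : IsLor L) {n n' : V →ₗ[ℝ] TT D}
    (h : ∀ v, s • actZ c s L (n' v) = n (sim 1 L 0 v)) {m : TT D} (hm : PotZ c n' m) :
    PotZ c n (s ^ 2 • actZ c s L m) := by
  have P0 := P_ugZ b hs hL (measurableSet_singleton 0) (by simp [hs.ne'])
  have P1 := P_ugZ b hs hL (measurableSet_singleton 0).compl (by simp [hs.ne'])
  have g : ∀ v, s • actZ c s L (gd m v) = gd (s ^ 2 • actZ c s L m) (sim 1 L 0 v) := fun v => by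
    change s • actZ c s L (m ∘L _) = _ ∘L _
    rw [b.ba.der s L _ _ hs hL, smul_smul, ContinuousLinearMap.smul_comp, pow_two]
  refine ⟨b.ba.tc_smul _ _ (b.ba.tc_act _ _ _ hs hL hm.tc), fun f => ?_, fun v f => ?_⟩
  · rw [← ContinuousLinearMap.comp_apply _ bx, ← dvg_gd, ← dvg_actZ b hs hL g, ← dvg_actZ b hs hL h,
      dvg_gd]
    exact (P1 _).trans ((congrArg _ (hm.pos _)).trans (P1 _).symm)
  · obtain ⟨M, hM, -, e⟩ := b.ten.inv L hL
    rw [← sim_id v, ← e, T.sim_cm, ← h]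
    refine (congrArg (fun x : TT D => c.bt.P _ (x f)) (g _).symm).trans ?_
    simp only [ContinuousLinearMap.smul_apply, ContinuousLinearMap.map_smul_of_tower]
    exact congrArg _ ((P0 _).trans ((congrArg _ (hm.nul _ _)).trans (P0 _).symm))

lemma pot_addZ (b : B0Z c) {n n' : V →ₗ[ℝ] TT D} {m x : TT D} (hx : TCZ c x)
    (h : ∀ v, n v - n' v = x ∘L KDa.dS v) (hm : PotZ c n' m) : PotZ c n (m + x) := by
  have e : ∀ v, n v = n' v + gd x v := fun v => (sub_eq_iff_eq_add'.1 (h v))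
  refine ⟨b.ba.tc_add _ _ hm.tc hx, fun f => ?_, fun v f => ?_⟩
  · rw [ContinuousLinearMap.add_apply, map_add, hm.pos, ← map_add,
      ← ContinuousLinearMap.comp_apply x, ← dvg_gd]
    simp [dvg, e, Finset.sum_add_distrib]
  · rw [e, ContinuousLinearMap.add_apply, ContinuousLinearMap.add_apply, map_add, map_add, hm.nul]
    rfl

end Dvr

open Dvr

variable {D : Type*} [NormedAddCommGroup D] [InnerProductSpace ℂ D] [GrD D]

theorem div_rowZ (c : CtxZ D) (b : B0Z c) (irn : IRNZ c) (pot : POTZ c) (cr : CRLZ c) : DIVZ c := by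
  intro n cc h1 h2 h3 h4 h5
  obtain ⟨N, hN⟩ : ∃ N : EC → V →ₗ[ℝ] TT D, ∀ η v, N η v = n v η :=
    ⟨fun η => (LinearMap.proj η).comp n, fun _ _ => rfl⟩
  simp only [← hN] at h1 h2 h4
  replace h5 : ∀ (s : ℝ) L (η : EC), 0 < s → IsLor L → ∀ v,
      s • actZ c s L (N (η.pull s L) v) = N η (sim 1 L 0 v) := fun s L η hs hL v => by
    rw [hN, hN, ← h5 s L v hs hL]
    rfl
  have e1 : ∀ η η' v v', crl (N η) v v' = crl (N η') v v' := fun η η' v v' => by
    ext1 f
    simp [crl, sub_eq_iff_eq_add.1 (h4 _ η η'), dS_comm v v']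
  have ex : ∀ η, ∃ m, PotZ c (N η) m := fun η => by
    obtain ⟨a1, a2, a3⟩ := cr (N η) (h1 · η) fun s L v v' hs hL => by
      rw [e1 η (η.pull s L), crl, map_sub, b.ba.der s L _ _ hs hL, b.ba.der s L _ _ hs hL,
        ← ContinuousLinearMap.smul_comp, ← ContinuousLinearMap.smul_comp, h5 s L η hs hL,
        h5 s L η hs hL, crl]
    refine pot.ex _ (h1 · η) (fun v => irn _ ((2 : ℝ) ^ 2 • actZ c 2 GF.one
      (cc (η.pull 2 GF.one) η)) v (h1 v η) (b.ba.tc_smul _ _ (b.ba.tc_act _ _ _ two_pos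
        (lor_one b.ten) (h3 _ _))) ?_) a1 a2 a3
    have a4 := h5 2 _ η two_pos (lor_one b.ten) v
    rw [sim_id, sub_eq_iff_eq_add'.1 (h4 v _ η), map_add, b.ba.der _ _ _ _ two_pos (lor_one b.ten),
      sim_id, smul_add, smul_smul, ← pow_two, ← ContinuousLinearMap.smul_comp] at a4
    exact a4.symm
  choose m hm using ex
  exact ⟨m, fun η => ⟨(hm η).tc, pot.loc _ _ _ (h1 · η) (h2 · η) (hm η)⟩,
    fun η η' => sub_eq_iff_eq_add'.2 (pot.uq _ _ _ (hm η)
      (pot_addZ b (h3 η η') (h4 · η η') (hm η'))),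
    fun s L hs hL => funext fun η => pot.uq _ _ _ (pot_actZ b hs hL (h5 s L η hs hL) (hm _)) (hm η)⟩

end

end Vale.Agent.P352X.TPD
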