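import Vale.Agent.P352Z.P352X.Api1C
import Vale.Agent.P352Z.P352X.TPD.Spec

open Vale.Agent.P352G

/-!
# P352X, block TPD, row DL0: a distribution with local gradient is local
-/

set_option linter.all false

open MeasureTheory Filter Topology
open scoped SchwartzMap ComplexConjugate ENNReal ContDiff

namespace Vale.Agent.P352X.TPD

open Vale.Agent.P352 Vale.Agent.P352.GF Vale.Agent.P352.BW Vale.Agent.P352.H246
open Vale.Agent.P352.H496 Vale.Agent.P352.H755 Vale.Agent.P352.H15
open UniformSpace (Completion)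
open Complex (I)

noncomputable section

variable {D : Type*} [NormedAddCommGroup D] [InnerProductSpace ℂ D] [GrD D]

namespace Dl0

/-- the mean ergodic theorem along a null ray -/
lemma ergZ (c : CtxZ D) (g : GRPZ c) {a : V} (ha : IsNull a) {v : Completion D}
    (hv : inner ℂ c.Om v = 0) : Tendsto (fun t : ℝ => ∫ y in (0 : ℝ)..1,
      (Ut c.Q ((t * y) • a) v - v)) atTop (𝓝 (-v)) := by
  have h := Kin.thinZ c.bR c.ct c.bV volume (ContinuousLinearMap.toSpanSingleton ℝ a) (x := 1)
    (.inl (by simpa using ha)) (u := (Set.Ioc (0 : ℝ) 1).indicator 1)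
    ((integrable_indicator_iff measurableSet_Ioc).2 (integrableOn_const (by simp))) v
  rw [show inner ℂ (om c.Q) v = 0 from hv, zero_smul, smul_zero] at h
  have h1 := h.sub_const v
  rw [zero_sub] at h1
  refine h1.congr fun t => ?_
  rw [intervalIntegral.integral_sub ((g.ut_cont (by fun_prop) continuous_const).intervalIntegrable
    _ _) (by simp), intervalIntegral.integral_const, sub_zero, one_smul,
    intervalIntegral.integral_of_le zero_le_one, ← integral_indicator measurableSet_Ioc]
  congr 2 with y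
  by_cases hy : y ∈ Set.Ioc (0 : ℝ) 1 <;> simp [hy, Br.Ut_apply]

lemma th_rsmulZ (c : CtxZ D) (r : ℝ) (z : Completion D) : ThZ c (r • z) = r • ThZ c z := by
  rw [← Complex.coe_smul, map_smulₛₗ, Complex.conj_ofReal, Complex.coe_smul]

end Dl0

/-- **row DL0** -/
theorem dl0_rowZ (c : CtxZ D) (b : B0Z c) : DL0Z c := by
  intro σ K x hx h a a' y f ha ha' haa hf h1 h2
  have g := b.grp
  have G := g.ugT a
  have hp := (h a a a' y f ha ha' haa hf h1 h2).neg
  set W : ℝ → Completion D →L[ℂ] Completion D := fun t => Ut c.Q (t • a) with hW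
  have eT : ∀ t z, W t (ThZ c z) = ThZ c (W (-t) z) := fun t z => by
    have := b.ba.th_ug 1 _ ((-t) • a) z one_pos H496.isLor_one (.inr rfl)
    rw [neg_smul, neg_neg] at this
    simpa only [hW, Ut, neg_smul] using this.symm
  have g1 := b.ba.tc_gn a x f hx
  have g2 : Gn W (σ • ThZ c (x (ng f))) (σ • -I • ThZ c (x (KDa.dS a (ng f)))) := by
    refine Gn.rsmul σ ?_
    let A : Completion D →L[ℝ] Completion D :=
      ⟨⟨⟨ThZ c, map_add _⟩, Dl0.th_rsmulZ c⟩, (ThZ c).continuous⟩
    have := A.hasFDerivAt.comp_hasDerivAt (0 : ℝ) (HasDerivAt.scomp_of_eq (0 : ℝ)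
      (b.ba.tc_gn a x (ng f) hx) (hasDerivAt_neg 0) neg_zero.symm)
    refine (gn_of_hasDerivAt (this.congr_of_eventuallyEq (.of_forall fun t => eT t _))).cast rfl ?_
    rw [smul_smul I I, Complex.I_mul_I, neg_one_smul, neg_one_smul, neg_neg]
    rfl
  have key : ∀ t, 0 ≤ t → Pr (c.N (Wdg a a' y)) c.Om (W t (x f) - x f)
      (W t (σ • ThZ c (x (ng f))) - σ • ThZ c (x (ng f))) := fun t ht => by
    have e1 := G.integral_eq g1 0 t
    have e2 := G.integral_eq g2 0 t
    rw [G.zero] at e1 e2
    rw [← e1, ← e2]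
    refine Pr.intervalIntegral (((G.cont _).const_smul I).intervalIntegrable _ _)
      (((G.cont _).const_smul I).intervalIntegrable _ _) fun r hr => ?_
    rw [Set.uIoc_of_le ht] at hr
    refine ((hp.cov (g.uni 1 GF.one (r • a)) (g.vac _ _ _) fun X hX =>
      (g.alg 1 _ (r • a) _ one_pos H496.isLor_one X).1 hX).sub_regZ ?_).cast ?_ ?_
    · rintro _ ⟨z, hz, rfl⟩
      rw [sim_ut]
      refine ⟨?_, ?_⟩
      · rw [add_sub_right_comm, md_add, md_smul, ha.1, mul_zero, add_zero]
        exact hz.1
      · rw [add_sub_right_comm, md_add, md_smul, md_comm a' a]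
        exact add_pos hz.2 (mul_pos hr.1 haa)
    · rw [← map_smul, smul_smul, Complex.I_mul_I, neg_one_smul]
      rfl
    · rw [← map_smul, smul_comm I σ, I_neg_I, neg_smul, neg_neg]
      rfl
  have p2 : inner ℂ c.Om (σ • ThZ c (x (ng f))) = 0 := by
    rw [← Complex.coe_smul, inner_smul_right, ← b.ba.th_om, b.ba.th_inner, ← inner_conj_symm,
      hx.perp, map_zero, mul_zero]
  have := Pr.closed ((eventually_ge_atTop (0 : ℝ)).mono fun t ht => Pr.intervalIntegral
    (((g.ut_cont (by fun_prop) continuous_const).sub continuous_const).intervalIntegrable _ _)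
    (((g.ut_cont (by fun_prop) continuous_const).sub continuous_const).intervalIntegrable _ _)
    fun r hr => key (t * r) (mul_nonneg ht (by
      rw [Set.uIoc_of_le zero_le_one] at hr
      exact hr.1.le))) (Dl0.ergZ c g ha (hx.perp f)) (Dl0.ergZ c g ha p2)
  simpa only [neg_neg] using this.neg

end

end Vale.Agent.P352X.TPD
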