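import Vale.Agent.P352X.TPD.FIN
import Vale.Agent.P352Z.P352X.TPD.FIN.B

open Vale.Agent.P352G

/-!
# P352X, row TPD.FIN: the covariant extension to the diagonal (helper17)
-/

set_option linter.all false

open MeasureTheory Filter Topology Set
open scoped SchwartzMap ComplexConjugate ContDiff

namespace Vale.Agent.P352X.TPD

open Vale.Agent.P352 Vale.Agent.P352.GF Vale.Agent.P352.BW Api4
open Vale.Agent.P352.H755 (Tst)
open Vale.Agent.P352.H496 (IsNull Wdg)
open Vale.Agent.P352Y (mon dc_mon f2 jet ext5 expand2 expand' tsupport_comp sw_sw)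
open UniformSpace (Completion)

noncomputable section

namespace Fi

variable {D : Type*} [NormedAddCommGroup D] [InnerProductSpace ℂ D] [GrD D] {c : CtxZ D} {w v v' : WW D}
  {k m : ℕ}

/-- covariant local extensions of `w` -/
structure FullZ (c : CtxZ D) (w v : WW D) : Prop where
  off : ∀ I J F, OffD F → v I J F = w I J F
  perp : ∀ I J F, inner ℂ c.Om (v I J F) = 0
  cov : ∀ s L a I J (F G : S2), 0 < s → IsLor L →
    (∀ x y, G (x, y) = F (sim s L a x, sim s L a y)) →
    v I J F = ∑ K, ∑ M, (L2 L K I * L2 L M J) • Ug c.Q s L a (v K M G)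
  loc : ∀ a b y I J (G G' : S2), IsNull a → IsNull b → 0 < mdot a b →
    HasCompactSupport G → tsupport G ⊆ Wdg a b y ×ˢ Wdg a b y →
    (∀ x z, G' (x, z) = G (-x, -z)) → Pr (c.N (Wdg a b y)) c.Om (v I J G) (ThZ c (v I J G'))
  ev : EvW v

/-- an extension with the contact terms `B` -/
structure CandZ (c : CtxZ D) (w v : WW D) (m : ℕ)
    (B : ∀ k, Tn (Fin 4 ⊕ Fin k) →ₗ[ℝ] Fam D) : Prop where
  rel : ∀ I J, Rel m (v I J) (w I J)
  val : ∀ k ≤ m, ∀ I J (γ : Fin k → Ix) (η : EC) f,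
    v I J (ten2 (cmo γ η.1) f) = B k (un I J γ) η f

variable {B : ∀ k, Tn (Fin 4 ⊕ Fin k) →ₗ[ℝ] Fam D}

theorem ex_candZ (t : TEN) (h1 : ∀ k h, DatZ c w ((-1) ^ k) (pol h) (B k h))
    (h3 : ∀ k I J γ (σ : Equiv.Perm (Fin k)), B k (un I J (γ ∘ σ)) = B k (un I J γ)) :
    ∃ v m, CandZ c w v m B := by
  obtain ⟨C, m, hC, hb⟩ := ST.clm_sn_c (ContinuousLinearMap.pi fun p : I2 × I2 => w p.1 p.2)
  obtain ⟨η0, -⟩ := t.small 1 one_pos
  choose v e1 e2 e3 using fun I J => ext5 (w I J) (m + 1) (dc_cx η0.2.1.1)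
    (η0.2.1.2.mono fun u hu => by simp [cx, hu]) (fun k γ => B k (un I J γ) η0)
    fun k γ σ => by rw [h3]
  refine ⟨v, m, fun I J => ⟨e1 I J, fun F ⟨γ, H, e⟩ => e3 I J γ H F e, C, hC, fun F =>
    (norm_le_pi_norm _ (I, J)).trans (hb F)⟩, fun k hk I J γ η f => ?_⟩
  obtain ⟨k1, k2⟩ := t.ec η η0
  have a := DFunLike.congr_fun ((h1 k (un I J γ)).coc η η0) f
  rw [psi_un, ContinuousLinearMap.sub_apply, ← e2 I J k (Nat.lt_succ_of_le hk),
    ContinuousLinearMap.comp_apply, ← e1 I J _ fun x hx => k2 ?_, sub_eq_iff_eq_add,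
    ← map_add] at a
  · refine (congrArg _ (SchwartzMap.ext fun z => ?_)).trans a.symm
    erw [SchwartzMap.add_apply, ten2_apply, ten2_apply, ten2_apply, cmo_apply γ η.2.1.1,
      cmo_apply γ k1, cmo_apply γ η0.2.1.1]
    simp only [Pi.sub_apply]
    push_cast
    ring
  · simpa using (supp_ten2 γ k1 f hx).1

theorem ug_splitZ (g : GRPZ c) {s : ℝ} {L : Ix → V} (hs : 0 < s) (hL : IsLor L) (a : V)
    (z : Completion D) : Ug c.Q s L a z = Ut c.Q a (Ug c.Q s L 0 z) := by
  have := g.mul 1 GF.one a s L 0 one_pos hs H496.isLor_one hL (.inl rfl)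
  simp only [HM.sim_tr, one_mul, zero_add, add_zero] at this
  exact (DFunLike.congr_fun this z).symm

theorem CandZ.perp (h : CandZ c w v m B) (t : TEN) (hw : SrcZ c w)
    (h1 : ∀ k h, DatZ c w ((-1) ^ k) (pol h) (B k h)) (I J : I2) (F : S2) :
    inner ℂ c.Om (v I J F) = 0 := by
  obtain ⟨η, -⟩ := t.small 1 one_pos
  obtain ⟨a1, a2⟩ := ((h.rel I J).comp (innerSL ℂ c.Om) adm_one).kill fun F _ => hw.perp I J F
  exact DFunLike.congr_fun (expand' a1 a2 (dc_cx η.2.1.1)
    (η.2.1.2.mono fun u hu => by simp [cx, hu]) fun k hk γ f =>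
      (congrArg _ (h.val k hk I J γ η f)).trans (((h1 k _).tc η).perp f)) F

theorem CandZ.ev (h : CandZ c w v m B) (t : TEN) (hw : SrcZ c w)
    (h1 : ∀ k h, DatZ c w ((-1) ^ k) (pol h) (B k h)) : EvW v := fun I J F => by
  obtain ⟨η, -⟩ := t.small 1 one_pos
  have e : ∀ z, (Gm D - 1 : Completion D →L[ℂ] Completion D) z = 0 ↔ Gm D z = z := fun z => by
    rw [ContinuousLinearMap.sub_apply, sub_eq_zero]
    rfl
  obtain ⟨a1, a2⟩ := ((h.rel I J).comp (Gm D - 1 : Completion D →L[ℂ] Completion D) adm_one).kill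
    fun F _ => (e _).2 (hw.ev I J F)
  exact (e _).1 (DFunLike.congr_fun (expand' a1 a2 (dc_cx η.2.1.1)
    (η.2.1.2.mono fun u hu => by simp [cx, hu]) fun k hk γ f =>
      (congrArg (Gm D - 1 : Completion D →L[ℂ] Completion D) (h.val k hk I J γ η f)).trans
        ((e _).2 (((h1 k _).tc η).ev f))) F)

theorem CandZ.cov (h : CandZ c w v m B) (t : TEN) (g : GRPZ c) (hw : SrcZ c w)
    (h1 : ∀ k h, DatZ c w ((-1) ^ k) (pol h) (B k h))
    (h2 : ∀ k (s : ℝ) L h, 0 < s → IsLor L → s ^ k • gaZ c s L (B k (pb L h)) = B k h)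
    (s : ℝ) (L : Ix → V) (a : V) (I J : I2) (F G : S2) (hs : 0 < s) (hL : IsLor L)
    (e : ∀ x y, G (x, y) = F (sim s L a x, sim s L a y)) :
    v I J F = ∑ K, ∑ M, (L2 L K I * L2 L M J) • Ug c.Q s L a (v K M G) := by
  obtain ⟨η, -⟩ := t.small 1 one_pos
  obtain ⟨a1, a2⟩ := ((h.rel I J).sub (Rel.sum Finset.univ fun K => Rel.sum Finset.univ fun M =>
    (h.rel K M).comp ((L2 L K I * L2 L M J) • Ug c.Q s L a) (adm_sim hs hL a))).kill fun F hF => by
      simpa [sub_eq_zero] using hw.cov s L a I J F _ hs hL hF (Wk.sim2_apply hs hL a F)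
  have := DFunLike.congr_fun (expand' a1 a2 (dc_cx η.2.1.1)
    (η.2.1.2.mono fun u hu => by simp [cx, hu]) fun k hk γ f => ?_) F
  · rw [show G = Wk.sim2 hs hL a F from SchwartzMap.ext fun z =>
      (e z.1 z.2).trans (Wk.sim2_apply hs hL a F z.1 z.2).symm]
    simpa [sub_eq_zero] using this
  have e1 : Wk.sim2 hs hL a (ten2 (cmo γ η.1) f) = ∑ δ : Fin k → Ix,
      ((s ^ k * ∏ i, L (δ i) (γ i) : ℝ) : ℂ) •
        ten2 (cmo δ (η.pull s L).1) (pS s L (ST.tsl (-a) f)) := SchwartzMap.ext fun z => by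
    rw [Wk.sim2_apply hs hL a _ z.1 z.2, ten2_apply, P352Y.sim_sub, cmo_apply γ η.2.1.1, mon_lin]
    simp only [SchwartzMap.sum_apply, SchwartzMap.smul_apply, ten2_apply, smul_eq_mul,
      cmo_apply _ (η.pull s L).2.1.1, η.pull_apply hs hL, pS_apply hs hL, ST.tsl_apply,
      Finset.sum_mul, mul_assoc, sub_neg_eq_add, ← HM.sim_at]
  have e2 := DFunLike.congr_fun (congrFun (h2 k s L (un I J γ) hs hL) η) (ST.tsl (-a) f)
  have e3 := ((h1 k (un I J γ)).tc η).tra a (ST.tsl (-a) f)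
  rw [show ST.tsl a (ST.tsl (-a) f) = f from SchwartzMap.ext fun z => by simp [ST.tsl_apply],
    ← e2, pb_un] at e3
  rw [show (sch fun u => mon γ u * cx η.1 u) = cmo γ η.1 from rfl,
    ContinuousLinearMap.sub_apply, h.val k hk, ← e3, sub_eq_zero]
  simp only [ContinuousLinearMap.sum_apply, ContinuousLinearMap.comp_apply,
    ContinuousLinearMap.smul_apply, map_sum, map_smul, Finset.sum_apply, Pi.smul_apply, ga_applyZ,
    act_applyZ, ContinuousLinearMap.map_smul_of_tower, Finset.smul_sum, ← ug_splitZ g hs hL, e1]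
  simp only [map_sum, map_smul, h.val k hk, Finset.smul_sum, smul_smul, ← Complex.coe_smul, L2]
  refine Finset.sum_congr rfl fun K _ => Finset.sum_congr rfl fun M _ =>
    Finset.sum_congr rfl fun δ _ => congrArg₂ _ ?_ rfl
  push_cast
  ring

theorem CandZ.loc (h : CandZ c w v m B) (t : TEN) (b0 : BAZ c) (hw : SrcZ c w)
    (h1 : ∀ k h, DatZ c w ((-1) ^ k) (pol h) (B k h)) (a b y : V) (I J : I2) (G G' : S2)
    (ha : IsNull a) (hb : IsNull b) (hab : 0 < mdot a b) (hG : HasCompactSupport G)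
    (hW : tsupport G ⊆ Wdg a b y ×ˢ Wdg a b y) (e : ∀ x z, G' (x, z) = G (-x, -z)) :
    Pr (c.N (Wdg a b y)) c.Om (v I J G) (ThZ c (v I J G')) := fun Z hZ => by
  have o := (Ap.open_wdg a b y).prod (Ap.open_wdg a b y)
  obtain ⟨κ, k1, k2, k3, -⟩ := Ap.ex_chi hG o hW
  have dk := dc_cx k1
  obtain ⟨ε, ε0, hε⟩ := hG.isCompact.exists_thickening_subset_open
    (o.inter (isOpen_interior (s := {z | κ z = 1}))) fun z hz =>
      ⟨hW hz, mem_interior_iff_mem_nhds.2 (k3 z hz)⟩
  obtain ⟨η, hη⟩ := t.small ε ε0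
  have i : ∀ x, Gm D x = x → inner ℂ (ThZ c x) (Z c.Om) = inner ℂ (ThZ c (Z c.Om)) x :=
    fun x hx => (b0.th_inner (Z c.Om) (ThZ c x)).symm.trans (by rw [b0.th_th x hx])
  obtain ⟨a1, a2⟩ := (((h.rel I J).comp (innerSL ℂ (star Z c.Om)) (adm_ml dk)).sub
    ((h.rel I J).comp (innerSL ℂ (ThZ c (Z c.Om))) (adm_ng.comp (adm_ml dk) (vn_ml dk)))).kill
      fun F hF => by
    have s1 : tsupport (ml (cx κ) F) ⊆ tsupport κ :=
      Ap.tsupp_of_zero fun z hz => by simp [ml_apply dk, cx, hz]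
    exact sub_eq_zero.2 ((hw.loc a b y I J _ _ ha hb hab ((adm_ml dk).off F hF)
      (k1.2.of_isClosed_subset (isClosed_tsupport _) s1) (s1.trans k2)
      (fun _ _ => rfl) Z hZ).trans (i _ (hw.ev _ _ _)))
  have := expand2 a1 a2 (dc_cx η.2.1.1) (η.2.1.2.mono fun u hu => by simp [cx, hu]) G
  rw [Finset.sum_eq_zero fun k hk => Finset.sum_eq_zero fun γ _ => ?_] at this
  · have e1 : ml (cx κ) G = G := SchwartzMap.ext fun z => by
      by_cases hz : z ∈ tsupport G
      · simp [ml_apply dk, cx, (k3 z hz).self_of_nhds]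
      · simp [ml_apply dk, image_eq_zero_of_notMem_tsupport hz]
    rw [i _ (h.ev t hw h1 _ _ _), show G' = ng2 G from SchwartzMap.ext fun z => e z.1 z.2, ← sub_eq_zero]
    simpa [e1] using this
  have s1 : tsupport (jet γ G) ⊆ (fun z => (z, z)) ⁻¹' tsupport G :=
    closure_minimal (fun z hz => by_contra fun n => hz (f2.dd_zero γ n))
      ((isClosed_tsupport _).preimage (by fun_prop))
  have s2 : ∀ z ∈ tsupport (jet γ G), ∀ u ∈ tsupport η.1, (z + u, z) ∈
      Metric.thickening ε (tsupport G) := fun z hz u hu =>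
    Metric.mem_thickening_iff.2 ⟨_, s1 hz, by simpa [Prod.dist_eq, ε0] using hη hu⟩
  have e1 : ml (cx κ) (ten2 (cmo γ η.1) (jet γ G)) = ten2 (cmo γ η.1) (jet γ G) :=
    SchwartzMap.ext fun z => by
      by_cases hz : z ∈ tsupport (ten2 (cmo γ η.1) (jet γ G))
      · obtain ⟨b1, b2⟩ := supp_ten2 γ η.2.1.1 _ hz
        have := interior_subset (hε (s2 _ b2 _ b1)).2
        simp only [add_sub_cancel, mem_setOf_eq, Prod.mk.eta] at this
        simp only [ml_apply dk, cx, this, Complex.ofReal_one, one_mul]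
      · rw [ml_apply dk, image_eq_zero_of_notMem_tsupport hz, mul_zero]
  have e2 : ng2 (ten2 (cmo γ η.1) (jet γ G)) =
      (((-1 : ℝ) ^ k : ℝ) : ℂ) • ten2 (cmo γ η.1) (ng (jet γ G)) := SchwartzMap.ext fun z => by
    simp only [ng2_apply, ten2_apply, cmo_apply γ η.2.1.1, SchwartzMap.smul_apply, ng_apply,
      neg_sub_neg, smul_eq_mul]
    rw [← neg_sub z.1, η.2.2, ← neg_one_smul ℝ (z.1 - z.2), P352Y.mon_smul]
    push_cast
    ring
  have := ((h1 k (un I J γ)).loc η) a b y (jet γ G) ha hb hab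
    ((hG.isCompact.image continuous_snd).of_isClosed_subset (isClosed_tsupport _)
      fun z hz => ⟨_, s1 hz, rfl⟩) (fun z hz => (hW (s1 hz)).1)
    (fun z hz u hu => (hε (s2 z hz u hu)).1.1) Z hZ
  have hk' := Nat.lt_succ_iff.1 (Finset.mem_range.1 hk)
  refine smul_eq_zero_of_right _ (sub_eq_zero.2 ?_)
  show inner ℂ _ (v I J (ml (cx κ) (ten2 (cmo γ η.1) _))) =
    inner ℂ _ (v I J (ng2 (ml (cx κ) (ten2 (cmo γ η.1) _))))
  rw [e1, e2, map_smul, h.val k hk', h.val k hk', this, ← Complex.coe_smul, inner_smul_left,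
    inner_smul_right, i _ (((h1 k _).tc η).ev _), Complex.conj_ofReal]

theorem ex_fullZ (b : B0Z c) (hw : SrcZ c w) (h : ∀ k, ExtZ c w k) : ∃ v, FullZ c w v := by
  choose B h1 h2 h3 using fun k => ext_symZ b.ten (h k)
  obtain ⟨v, m, k⟩ := ex_candZ b.ten h1 h3
  exact ⟨v, fun I J => (k.rel I J).off, k.perp b.ten hw h1, k.cov b.ten b.grp hw h1 h2,
    k.loc b.ten b.ba hw h1, k.ev b.ten hw h1⟩

theorem FullZ.av (h : FullZ c w v) (h' : FullZ c w v') :
    FullZ c w fun I J => (2⁻¹ : ℝ) • (v I J + v' I J) where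
  off I J F hF := by
    simp only [ContinuousLinearMap.smul_apply, ContinuousLinearMap.add_apply, h.off I J F hF,
      h'.off I J F hF]
    module
  perp I J F := by
    simp only [ContinuousLinearMap.smul_apply, ContinuousLinearMap.add_apply, ← Complex.coe_smul,
      inner_smul_right, inner_add_right, h.perp, h'.perp, add_zero, mul_zero]
  cov s L a I J F G hs hL e := by
    simp only [ContinuousLinearMap.smul_apply, ContinuousLinearMap.add_apply, map_add,
      h.cov s L a I J F G hs hL e, h'.cov s L a I J F G hs hL e, smul_add, Finset.smul_sum,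
      ContinuousLinearMap.map_smul_of_tower, Finset.sum_add_distrib, smul_comm (2⁻¹ : ℝ)]
  loc a b y I J G G' ha hb hab hG hW e := by
    have := ((h.loc a b y I J G G' ha hb hab hG hW e).add
      (h'.loc a b y I J G G' ha hb hab hG hW e)).csmul 2⁻¹
    simpa only [ContinuousLinearMap.smul_apply, ContinuousLinearMap.add_apply, map_add,
      ← Complex.coe_smul, map_smulₛₗ, Complex.conj_ofReal] using this
  ev I J F := by
    simp only [ContinuousLinearMap.smul_apply, ContinuousLinearMap.add_apply, map_add,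
      ContinuousLinearMap.map_smul_of_tower, h.ev I J F, h'.ev I J F]

theorem FullZ.ind (h : FullZ c w v) (hw : ∀ I J, w I J = w I.swap J) :
    FullZ c w fun I J => v I.swap J where
  off I J F hF := by rw [h.off _ _ F hF, ← hw]
  perp I J F := h.perp _ _ F
  cov s L a I J F G hs hL e := (h.cov s L a _ _ F G hs hL e).trans
    (Fintype.sum_equiv (Equiv.prodComm Ix Ix) _ _ fun K => by simp [L2, mul_comm])
  loc a b y I J := h.loc a b y _ _
  ev I J F := h.ev _ _ F

theorem FullZ.swap (h : FullZ c w v) (hw : ∀ I J F, w J I (Str.sw F) = w I J F) :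
    FullZ c w fun I J => v J I ∘L Str.sw where
  off I J F hF := (h.off _ _ _ (P352Y.OffD.sw hF)).trans (hw I J F)
  perp I J F := h.perp _ _ _
  cov s L a I J F G hs hL e := (h.cov s L a J I (Str.sw F) (Str.sw G) hs hL fun x y => e y x).trans
    (Finset.sum_comm.trans (by simp only [mul_comm]; rfl))
  loc a b y I J G G' ha hb hab hG hW e := h.loc a b y J I (Str.sw G) (Str.sw G') ha hb hab
    (hG.comp_homeomorph (Homeomorph.prodComm V V))
    (fun z hz => (hW (P352Y.tsupport_sw G hz)).symm) fun x z => e z x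
  ev I J F := h.ev _ _ _

end Fi

open Fi

theorem fin_rowZ {D : Type*} [NormedAddCommGroup D] [InnerProductSpace ℂ D] [GrD D] (c : CtxZ D) :
    B0Z c → SRCZ c → FINZ c := fun b src w hw h => by
  obtain ⟨v, hv⟩ := ex_fullZ b (src w hw) h
  have s1 : ∀ I J F, w J I (Str.sw F) = w I J F := fun I J F => (hw.swap I J F _ fun _ _ => rfl).symm
  have s2 : ∀ I J F, (PpZ c ∘L w J I) (Str.sw F) = (PpZ c ∘L w I J) F :=
    fun I J F => congrArg (PpZ c) (s1 I J F)
  have i1 := (src w hw).ind1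
  have h3 := hv.av (hv.swap s2)
  have h4 := h3.av (h3.ind i1)
  obtain ⟨u, hu, u1, u2⟩ : ∃ u, FullZ c (fun I J => PpZ c ∘L w I J) u ∧
      (∀ I J F, u J I (Str.sw F) = u I J F) ∧ ∀ I J, u I J = u I.swap J := by
    refine ⟨_, h4.av (((h4.swap s2).ind i1).swap s2), fun I J F => ?_, fun I J => ?_⟩
    · simp only [ContinuousLinearMap.smul_apply, ContinuousLinearMap.add_apply,
        ContinuousLinearMap.comp_apply, sw_sw]
      module
    · ext F
      simp only [ContinuousLinearMap.smul_apply, ContinuousLinearMap.add_apply,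
        ContinuousLinearMap.comp_apply, sw_sw, Prod.swap_swap]
      module
  have p : ∀ z, (1 - PpZ c) z = inner ℂ c.Om z • c.Om := fun z => by simp [PpZ]
  have p0 : PpZ c c.Om = 0 := by
    simp [PpZ, inner_self_eq_norm_sq_to_K, show ‖c.Om‖ = 1 from c.E.norm_xi]
  refine ⟨fun I J => u I J + (1 - PpZ c) ∘L w I J, ⟨fun I J f g F e hL => ?_, fun I J F G e => ?_,
    fun I J => by rw [← u2, ← hw.ind], fun s L a I J F G hs hL e => ?_⟩,
    fun a b' y I J G G' ha hb hab hG hW e => ?_, fun I J F => by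
      simp only [ContinuousLinearMap.add_apply, ContinuousLinearMap.comp_apply, p, map_add,
        map_smul, hu.ev I J F, b.grp.gv]⟩
  · have o : OffD F := fun x hx => hL x
      (tsupport_comp continuous_fst (fun z k => by rw [e z.1 z.2, k, zero_mul]) hx) x
      (tsupport_comp continuous_snd (fun z k => by rw [e z.1 z.2, k, mul_zero]) hx)
      (by simp [GF.mdot])
    simpa [hu.off I J F o] using hw.fac I J f g F e hL
  · obtain rfl : G = Str.sw F := SchwartzMap.ext fun z => e z.1 z.2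
    simp only [ContinuousLinearMap.add_apply, ContinuousLinearMap.comp_apply, u1, s1]
  · refine ⟨inner ℂ c.Om (w I J F) - ∑ K, ∑ M, L2 L K I * L2 L M J * inner ℂ c.Om (w K M G), ?_⟩
    simp only [ContinuousLinearMap.add_apply, ContinuousLinearMap.comp_apply, p,
      ← Ug_apply c.Q hs hL, map_add, map_smul, b.grp.vac, smul_add, Finset.sum_add_distrib,
      smul_smul, sub_smul, Finset.sum_smul, hu.cov s L a I J F G hs hL e]
    abel
  · simpa only [ContinuousLinearMap.add_apply, ContinuousLinearMap.comp_apply, p, map_add,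
      map_smul, p0, smul_zero, add_zero, (b.ba.pp _).2.2.2.1 (hu.perp _ _ _)] using
      hu.loc a b' y I J G G' ha hb hab hG hW e

end

end Vale.Agent.P352X.TPD
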