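import Vale.Agent.P352X.TPD.FIVE
import Vale.Agent.P352X.TPD.Ba1
import Vale.Agent.P352Z.P352X.TPD.Ut

open Vale.Agent.P352G

/-!
# P352X, block TPD, row FIVE: the fifth differences vanish
-/

set_option linter.all false

open MeasureTheory Filter Topology
open scoped SchwartzMap ComplexConjugate ENNReal ContDiff

namespace Vale.Agent.P352X.TPD

open Vale.Agent.P352 Vale.Agent.P352.GF Vale.Agent.P352.BW Vale.Agent.P352.H246
open Vale.Agent.P352.H496 Vale.Agent.P352.H755 Vale.Agent.P352.H15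
open UniformSpace (Completion)
open Complex (I)

noncomputable section

namespace Five

section
variable {ι E H : Type*} [AddCommGroup E] [Module ℝ E] [NormedAddCommGroup H] [NormedSpace ℝ H]
  (e : ι → E →ₗ[ℝ] H) (he : ∀ x, (∀ i, e i x = 0) → x = 0) (M : ℝ → E →ₗ[ℝ] E)
  (hM : ∀ x i, Tendsto (fun s => e i (M s x)) (𝓝[>] 0) (𝓝 ((32 : ℝ) • e i x)))
include he hM

end

end Five

variable {D : Type*} [NormedAddCommGroup D] [InnerProductSpace ℂ D] [GrD D]

/-- continuity at the identity, for all distributions -/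
lemma cont1Z {c : CtxZ D} (b : B0Z c) {ι : Type} {l : Filter ι} {L : ι → Ix → V} (x : TT D)
    (f : Sch) (hL : ∀ i, IsLor (L i)) (hl : Tendsto L l (𝓝 GF.one)) :
    Tendsto (fun i => actZ c 1 (L i) x f) l (𝓝 (actZ c 1 GF.one x f)) := by
  have h0 := lor_one b.ten
  refine tendsto_apply (C := 1) (.of_forall fun i => ?_)
    ((x.continuous.tendsto _).comp (Ba1r.pS_cont b.lie hL h0 hl f))
    (b.grp.cont ι l (fun _ => 1) L (fun _ => 0) 1 _ 0 _ (.inr (.inl rfl))
      (fun i => ⟨one_pos, hL i⟩) one_pos h0 tendsto_const_nhds hl tendsto_const_nhds)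
  exact ContinuousLinearMap.opNorm_le_bound _ zero_le_one fun z => by
    rw [ContinuousLinearMap.norm_map_of_mem_unitary (b.grp.uni _ _ _), one_mul]

lemma limMZ {c : CtxZ D} (b : B0Z c) (v : R2) (x : TT D) (f : Sch) :
    Tendsto (fun s : ℝ => (∑ j ∈ Finset.range 6, (Nat.choose 5 j : ℝ) •
      actZ c 1 (Lg ((j : ℝ) • s • v))) x f) (𝓝[>] 0) (𝓝 ((32 : ℝ) • x f)) := by
  have t := b.ten
  have : ∀ j : ℕ, Tendsto (fun s : ℝ => actZ c 1 (Lg ((j : ℝ) • s • v)) x f) (𝓝[>] 0)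
      (𝓝 (x f)) := fun j => by
    have := cont1Z b (ι := ℝ) (l := 𝓝[>] 0) (L := fun s : ℝ => Lg ((j : ℝ) • s • v)) x f
      (fun s => (t.lg _).1) (tendsto_nhdsWithin_of_tendsto_nhds
        ((t.lg0.2.comp (by fun_prop)).tendsto' 0 _ (by simp [t.lg0.1])))
    rwa [b.ba.one] at this
  have h1 := tendsto_finset_sum (Finset.range 6) fun j _ =>
    (this j).const_smul (Nat.choose 5 j : ℝ)
  rw [← Finset.sum_smul, show ∑ j ∈ Finset.range 6, (Nat.choose 5 j : ℝ) = 32 by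
    norm_num [Finset.sum_range_succ, Nat.choose]] at h1
  simpa only [LinearMap.sum_apply, LinearMap.smul_apply, ContinuousLinearMap.sum_apply,
    ContinuousLinearMap.smul_apply] using h1

lemma ebZ {c : CtxZ D} (b : B0Z c) {w : WW D} {Φ : V → Fam D} (h : PhiZ c w Φ) (τ : ℝ) (v : R2) :
    gaZ c 1 (Lb τ) (df5 (fun x => Φ (nb x)) 0 v) =
      Real.exp (-τ) ^ 2 • df5 (fun x => Φ (nb x)) 0 (Real.exp τ • v) := by
  have t := b.ten
  simp only [df5, map_sum, map_smul, Finset.smul_sum]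
  refine Finset.sum_congr rfl fun j _ => ?_
  have := h.cov 1 _ _ one_pos (t.lb τ).1 (null_nb (0 + (j : ℝ) • v))
  rw [one_pow, one_smul, (t.lb τ).2.1, show scp (Real.exp τ) (Real.exp (-τ)) (nb (0 + (j : ℝ) • v))
    = Real.exp (-τ) • nb (0 + (j : ℝ) • Real.exp τ • v) from null_ext (by
      simp only [nb, al_scp, al_pt, al_smul, zero_add, d2_smul, d2_smul_l, Real.exp_neg]
      field_simp) (by simp [nb]) (by
      simp [nb, ← Real.exp_add, smul_smul, mul_left_comm (Real.exp (-τ))]),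
    h.hom _ _ (null_nb _) (Real.exp_pos _)] at this
  rw [this, smul_comm]

lemma egZ {c : CtxZ D} (b : B0Z c) {w : WW D} {Φ : V → Fam D} (h : PhiZ c w Φ) (x y v : R2) :
    gaZ c 1 (Lg x) (df5 (fun x => Φ (nb x)) y v) = df5 (fun x => Φ (nb x)) (x + y) v := by
  have t := b.ten
  simp only [df5, map_sum, map_smul]
  refine Finset.sum_congr rfl fun j _ => ?_
  have := h.cov 1 _ _ one_pos (t.lg x).1 (null_nb (y + (j : ℝ) • v))
  rw [one_pow, one_smul, (t.lg x).2.1, gap_nb, ← add_assoc] at this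
  rw [this]

lemma exZ {c : CtxZ D} (b : B0Z c) {w : WW D} {Φ : V → Fam D} (hw : SrcZ c w) (h : PhiZ c w Φ)
    (v : R2) : ∃ y, HomZ c 1 2 y ∧ ∀ η, df5 (fun x => Φ (nb x)) 0 v η = y := by
  have t := b.ten
  have P := b.bp w hw
  refine P.dhom 1 2 _ ?_ fun s hs => ?_
  · have := P.dsum t (Finset.range 6) (fun j => (-1) ^ (5 - j) * (Nat.choose 5 j : ℝ)) _ _
      fun j _ => h.dat _ (null_nb (0 + (j : ℝ) • v))
    have z := ((t.h0s 0).2.2 0 0).2
    rw [zero_smul, zero_smul] at z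
    rwa [Five.sq5, z] at this
  · simp only [df5, map_sum, map_smul, Finset.smul_sum]
    refine Finset.sum_congr rfl fun j _ => ?_
    have := h.cov s _ _ hs (lor_one t) (null_nb (0 + (j : ℝ) • v))
    rw [smul_comm, this, sim_id]

lemma e1Z {c : CtxZ D} {y y' a0 a1 a2 : TT D} {s : ℝ} (hs : 0 < s) (z4 : y = a0 + a1 + a2)
    (h0 : ∀ t, actZ c 1 (Lb t) a0 = Real.exp (((-1 : ℤ) : ℝ) * t) • a0)
    (h1 : ∀ t, actZ c 1 (Lb t) a1 = Real.exp (((0 : ℤ) : ℝ) * t) • a1)
    (h2 : ∀ t, actZ c 1 (Lb t) a2 = Real.exp (((1 : ℤ) : ℝ) * t) • a2)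
    (e : actZ c 1 (Lb (Real.log s)) y = Real.exp (-Real.log s) ^ 2 • y') :
    y' = s • (a0 + s • a1 + s ^ 2 • a2) := by
  rw [z4, map_add, map_add, h0, h1, h2, Real.exp_neg, Real.exp_log hs, inv_pow,
    eq_inv_smul_iff₀ (by positivity)] at e
  rw [← e]
  simp only [Int.reduceNeg, Int.cast_neg, Int.cast_one, neg_mul, one_mul, Real.exp_neg,
    Real.exp_log hs, Int.cast_zero, zero_mul, Real.exp_zero, smul_add, smul_smul]
  congr 2 <;> [congr 1; skip; skip] <;> field_simp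

/-- **row FIVE** -/
theorem five_rowZ (c : CtxZ D) (b : B0Z c) (wl : WLZ c) : FIVEZ c := by
  intro w Φ hw h
  have t := b.ten
  obtain ⟨η⟩ := ec0 t
  have eg := egZ b h
  have eb := ebZ b h
  choose y hy ey using exZ b hw h
  set φ : R2 → Fam D := fun x => Φ (nb x) with hφ
  suffices H : ∀ v, y v = 0 from fun x v => by
    rw [← add_zero x, ← eg, show df5 φ 0 v = 0 from funext fun η => (ey v η).trans (H v), map_zero]
  intro v
  obtain ⟨z, z1, z2, z3, -⟩ := wl 1 2 _ (one_mul _) (hy v)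
  have z4 : y v = z (-1) + z 0 + z 1 := by
    rw [z3, show Finset.Icc (-3 : ℤ) 3 = {-3, -2, -1, 0, 1, 2, 3} by decide]
    simp [z2 (-3) (by norm_num), z2 (-2) (by norm_num), z2 2 (by norm_num), z2 3 (by norm_num),
      add_assoc]
  have e1 : ∀ s : ℝ, 0 < s → y (s • v) = s • (z (-1) + s • z 0 + s ^ 2 • z 1) := fun s hs => by
    have := congrFun (eb (Real.log s) v) η
    rw [ga_applyZ, ey, Pi.smul_apply, ey, Real.exp_log hs] at this
    exact e1Z hs z4 (z1 _).2 (z1 _).2 (z1 _).2 this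
  let M : ℝ → TT D →ₗ[ℝ] TT D := fun s =>
    ∑ j ∈ Finset.range 6, (Nat.choose 5 j : ℝ) • actZ c 1 (Lg ((j : ℝ) • s • v))
  have e2 : ∀ s : ℝ, y ((2 * s) • v) = M s (y (s • v)) := fun s => by
    rw [← ey _ η, ← smul_smul, Five.dbl]
    simp only [M, Finset.sum_apply, LinearMap.sum_apply, Pi.smul_apply, LinearMap.smul_apply]
    refine Finset.sum_congr rfl fun j _ => ?_
    rw [← ey _ (η.pull 1 (Lg ((j : ℝ) • s • v))), ← ga_applyZ, eg, add_zero]
  have lM : ∀ x f, Tendsto (fun s => M s x f) (𝓝[>] 0) (𝓝 ((32 : ℝ) • x f)) := limMZ b v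
  rw [z4]
  refine Five.kill3 (fun f : Sch => ⟨⟨fun x : TT D => x f, fun _ _ => rfl⟩, fun _ _ => rfl⟩)
    (fun x hx => ContinuousLinearMap.ext hx) M lM fun s hs => ?_
  have := e2 s
  rw [e1 _ (by positivity), e1 s hs, map_smul] at this
  refine smul_right_injective _ hs.ne' (Eq.trans ?_ this)
  module

end

end Vale.Agent.P352X.TPD
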