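import Vale.Agent.P352X.TPD.HMU
import Vale.Agent.P352Z.P352X.TPD.Spec
import Vale.Agent.P352Z.P352Y.WL

open Vale.Agent.P352G

/-!
# P352X, block TPD: row HMU
-/

set_option linter.all false

noncomputable section

open MeasureTheory Complex
open scoped Real ComplexConjugate

namespace Vale.Agent.P352X.TPD

open Vale.Agent.P352 Vale.Agent.P352.GF Vale.Agent.P352.BW Vale.Agent.P352Y.Wl
open Vale.Agent.P352.H496 (Wdg)
open Vale.Agent.P132 (ModData)

namespace Hmu

variable {H : Type*} [NormedAddCommGroup H] [InnerProductSpace ℂ H] [CompleteSpace H]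
  {M : VonNeumannAlgebra H} {ξ ψ ψ' : H} (E : ModData M ξ)

end Hmu

variable {D : Type*} [NormedAddCommGroup D] [InnerProductSpace ℂ D] [GrD D]

/-- **row HMU** -/
theorem hmu_rowZ (c : CtxZ D) (b : B0Z c) : HMUZ c := fun a a' y ψ ψ' h ha ha' hp hb hP => by
  have g := b.grp
  have hB : SN.Bd fun p : V => (h (mu p) : ℂ) := hb.comp Br.meas_mu
  set A := c.bt.Phi fun p : V => (h (mu p) : ℂ)
  have hL : ∀ L y v, IsLor L → Ug c.Q 1 L y (A v) = A (Ug c.Q 1 L y v) := fun L y v hL => by
    have e : Ug c.Q 1 L y = Ut c.Q y * Ug c.Q 1 L 0 := by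
      rw [Ut, g.mul _ _ _ _ _ _ one_pos one_pos H496.isLor_one hL (.inl rfl), one_mul, sim_ut,
        zero_add]
      simp only [sim_ut, add_zero]
    have i := H246.isLor_linv hL
    rw [e, ContinuousLinearMap.mul_apply, ContinuousLinearMap.mul_apply,
      Two.Phi_WZ (k := sim 1 (H246.linv L) 0) (conf_sim one_pos i).cont.measurable
        (Two.ug_utZ one_pos hL) (fun p y => (md_lor' p y hL).symm) hB,
      Two.Phi_WZ (A := id) measurable_id (fun z => by rw [← g.ut, add_comm, g.ut]; rfl)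
        (fun _ _ => rfl) (hB.comp (conf_sim one_pos i).cont.measurable)]
    simp only [mu, H755.md_LL i, id, A]
  obtain ⟨L, h1, h2⟩ := JCa.trans ha ha' hp
  have u := g.uni 1 L y
  have h3 : Pr (c.N (Wdg va vb 0)) c.Om (star (Ug c.Q 1 L y) ψ) (star (Ug c.Q 1 L y) ψ') :=
    hP.cov (Unitary.star_mem u) (by
      conv_lhs => rw [← g.vac 1 L y, ← ContinuousLinearMap.mul_apply, u.1]
      rfl) fun X hX => (g.alg 1 L y _ one_pos h1 _).2 (by
        rwa [star_star, ← mul_assoc, ← mul_assoc, u.2, one_mul, mul_assoc, u.2, mul_one, (h2 y).1])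
  have h4 := (Hmu.pr_comm c.E A (fun v w => by simpa only [conj_ofReal] using c.bt.adj hB v w)
    (fun t v => by rw [c.bw, c.bw, Bo, Usc, sqrt_exp_neg]; exact hL _ _ _ (b.ten.lb _).1)
    (fun v => by
      have := c.bt.cov_anti c.bt SN.isPair_mdot (k := fun p => -jr p) (A := jr)
        cont_jr.neg.measurable (fun p y => by rw [md_neg_l, ← md_jr, jr_jr])
        c.J.toContinuousLinearEquiv.toContinuousLinearMap (v := v) (w := c.J v)
        (fun y => JCa.utZ c y v) hB
      refine this.trans ?_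
      simp only [conj_ofReal, mu, md_neg_l, md_neg, neg_neg, md_jr, jr_jr, A]) h3).cov u
    (g.vac 1 L y) fun X hX => (h2 y).1 ▸ (g.alg 1 L y _ one_pos h1 X).1 hX
  rwa [hL _ _ _ h1, hL _ _ _ h1, ← ContinuousLinearMap.mul_apply _ (star _),
    ← ContinuousLinearMap.mul_apply _ (star _), u.2] at h4

end Vale.Agent.P352X.TPD
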