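import Vale.Agent.P352X.TPD.IRG
import Vale.Agent.P352Z.P352X.TPD.Spec

open Vale.Agent.P352G

/-!
# P352X, block TPD: row IRG
-/

set_option linter.all false

open MeasureTheory Filter Topology
open scoped SchwartzMap ComplexConjugate ENNReal ContDiff

namespace Vale.Agent.P352X.TPD

open Vale.Agent.P352 Vale.Agent.P352.GF Vale.Agent.P352.BW Vale.Agent.P352.H246
open Vale.Agent.P352.H496 Vale.Agent.P352.H755 Vale.Agent.P352.H15
open UniformSpace (Completion)

noncomputable section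

variable {D : Type*} [NormedAddCommGroup D] [InnerProductSpace ℂ D] [GrD D]

theorem irg_rowZ (c : CtxZ D) (b : B0Z c) : IRGZ c := fun σ K x f hx hl hK hf => by
  obtain ⟨r, hr⟩ := hK.exists_norm_le
  obtain ⟨r', hr'⟩ := hf.isCompact.isBounded.exists_norm_le
  refine ⟨6 * (|r'| + |r|) + 3, fun t y ht hy => ?_⟩
  obtain ⟨a, a', v, ha, ha', hp, h⟩ := Irg.geo (by positivity) hy
  have n1 : ∀ z ∈ tsupport f, ‖z‖ ≤ |r'| + |r| := fun z hz =>
    ((hr' z hz).trans (le_abs_self _)).trans (le_add_of_nonneg_right (abs_nonneg _))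
  have n2 : ∀ z ∈ tsupport f, ∀ u ∈ K, ‖z + u‖ ≤ |r'| + |r| := fun z hz u hu =>
    (norm_add_le _ _).trans (add_le_add ((hr' z hz).trans (le_abs_self _))
      ((hr u hu).trans (le_abs_self _)))
  set p : V := bas o t + tv y with hp'
  have sp : ∀ z ∈ tsupport (ST.tsl p f), z - p ∈ tsupport f :=
    Ap.tsupp_sub (K := (· - p) ⁻¹' tsupport f)
      ((isClosed_tsupport _).preimage (continuous_sub_right p)) fun z hz => subset_tsupport _ hz
  have h1 := hl a' a v f ha' ha (by rwa [H755.mdot_comm]) hf (fun z hz => (h z (n1 z hz)).1)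
    fun z hz u hu => (h _ (n2 z hz u hu)).1
  have h2 := hl a a' v (ST.tsl p f) ha ha' hp (hf.comp_homeomorph (Homeomorph.subRight p))
    (fun z hz => sub_add_cancel z p ▸ (h _ (n1 _ (sp z hz))).2 t ht) fun z hz u hu => by
      have := (h _ (n2 _ (sp z hz) u hu)).2 t ht
      rwa [← hp', add_right_comm, sub_add_cancel] at this
  have e : ng (ST.tsl p f) = ST.tsl (-p) (ng f) := by
    ext z
    rw [ng_apply, ST.tsl_apply, ST.tsl_apply, ng_apply]
    congr 1
    abel
  rw [e, ← hx.tra, ← hx.tra, Ut, Ut, b.ba.th_ug _ _ _ _ one_pos H496.isLor_one (.inr rfl),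
    neg_neg] at h2
  rw [ContinuousLinearMap.map_smul_of_tower]
  have u : ∀ z, Gm D z = z → Gm D (Ug c.Q 1 GF.one p z) = Ug c.Q 1 GF.one p z := fun z hz =>
    (DFunLike.congr_fun (b.grp.gU 1 GF.one p) z).trans (congrArg _ hz)
  refine pair_ev b.jc ha' ha (by rwa [H755.mdot_comm]) h1.symm h2 (u _ (hx.ev f)) ?_
  rw [ContinuousLinearMap.map_smul_of_tower, Ut, u _ (by rw [b.ba.th_gam, hx.ev])]

end

end Vale.Agent.P352X.TPD
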