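import Vale.Agent.P352X.TPD.IRN
import Vale.Agent.P352Z.P352X.R.TWO.Vc
import Vale.Agent.P352Z.P352X.TPD.ANI

open Vale.Agent.P352G

/-!
# P352X, block TPD: row IRN
-/

set_option linter.all false

open MeasureTheory Filter Topology Set
open scoped ENNReal NNReal

namespace Vale.Agent.P352X.TPD

open Vale.Agent.P352 Vale.Agent.P352.GF Vale.Agent.P352.BW
open UniformSpace (Completion)

noncomputable section

namespace Irn

variable {D : Type*} [NormedAddCommGroup D] [InnerProductSpace ℂ D] [GrD D] {c : CtxZ D}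

lemma nu_dilZ (g : GRPZ c) {s : ℝ} (hs : 0 < s) (w : Completion D) {φ : V → ℝ≥0∞}
    (hφ : Measurable φ) :
    ∫⁻ p, φ p ∂c.nu (Ug c.Q s GF.one 0 w) = ∫⁻ p, φ (s⁻¹ • p) ∂c.nu w := by
  rw [← Two.nu_WZ (g.uni s GF.one 0) (A := fun y => s • y) (k := fun p => s • p) (by fun_prop)
    (fun y => ?_) (fun p y => by simp only [mdot_eq, Pi.smul_apply, smul_eq_mul]; ring) w,
    lintegral_map (by fun_prop) (by fun_prop)]
  · simp only [smul_smul, inv_mul_cancel₀ hs.ne', one_smul]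
  rw [Ut, Ut, g.mul _ _ _ _ _ _ hs one_pos H496.isLor_one H496.isLor_one (.inl rfl),
    g.mul _ _ _ _ _ _ one_pos hs H496.isLor_one H496.isLor_one (.inl rfl)]
  simp [sim_one]

end Irn

variable {D : Type*} [NormedAddCommGroup D] [InnerProductSpace ℂ D] [GrD D]

open Irn in
/-- **row IRN** -/
theorem irn_rowZ (c : CtxZ D) (b : B0Z c) (rho : RHOZ c) : IRNZ c := by
  intro x y v tx ty e
  obtain ⟨ρ, lf, hν, hc, M, hM⟩ := rho x tx
  obtain ⟨ρ', lf', hν', hc', -⟩ := rho y ty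
  set G : Sch := Two.exists_g0.choose
  have eG : ev G = Two.g0 := rfl
  have mf : ∀ f : Sch, Measurable fun p => ENNReal.ofReal (‖ft (ev f) p‖ ^ 2) := fun f =>
    Two.meas_sq2 (Two.cont_ft ⟨f, rfl⟩).measurable
  have mk := Two.meas_sq2 Two.cont_k.measurable
  have cn : ∀ p (t : ℝ), ENNReal.ofReal (t * ‖ft Two.g0 p‖ ^ 2) *
      Two.sq2 (fun p => (ft Two.g0 p)⁻¹) p = ENNReal.ofReal t := fun p t => by
    rw [Two.sq2, mul_comm, ← ENNReal.ofReal_mul (sq_nonneg _), norm_inv]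
    have := norm_pos_iff.2 (Two.g0_ne p)
    congr 1
    field_simp
  have m1 : MeasurableSet (Metric.closedBall (0 : V) 1) := Metric.isClosed_closedBall.measurableSet
  have m2 : MeasurableSet (Metric.closedBall (0 : V) 2) := Metric.isClosed_closedBall.measurableSet
  have key : ∀ δ, 0 < δ → ∫⁻ p, hh δ p ∂ρ ≤ ρ (Metric.closedBall 0 2) +
      3 * (ENNReal.ofReal ((4 * ‖v‖) ^ 2) * ρ' (Metric.closedBall 0 1)) := fun δ hδ => by
    refine absorb (fin hδ hc) ?_
    set φ : V → ℝ≥0∞ := fun p => hh δ p * Two.sq2 (fun p => (ft Two.g0 p)⁻¹) p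
    have mφ : Measurable φ := (meas_hh δ).mul mk
    have e1 : ∫⁻ p, hh δ p ∂ρ = ∫⁻ p, φ p ∂c.nu (x G) := by
      rw [hν, lintegral_withDensity_eq_lintegral_mul _ (mf G) mφ]
      refine lintegral_congr fun p => ?_
      have := cn p 1
      rw [one_mul, ENNReal.ofReal_one] at this
      rw [Pi.mul_apply, eG, mul_left_comm, this, mul_one]
    have e2 : x G = ((2 : ℝ) : ℂ) • Ug c.Q 2 GF.one 0 (x (pS 2 GF.one G)) + y (KDa.dS v G) := by
      conv_lhs => rw [e]
      rfl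
    refine (e1.trans (by rw [e2])).trans_le ((lintegral_mono' (c.bt.nu_add_le _ _) le_rfl).trans ?_)
    rw [lintegral_smul_measure, lintegral_add_measure, ← CtxZ.nu, Two.nu_realZ, lintegral_smul_measure,
      nu_dilZ b.grp two_pos _ mφ, hν, ← CtxZ.nu, hν',
      lintegral_withDensity_eq_lintegral_mul _ (mf _) mφ,
      lintegral_withDensity_eq_lintegral_mul _ (mf _) (g := fun p => φ ((2⁻¹ : ℝ) • p))
        (by fun_prop), ENNReal.smul_def, smul_eq_mul, smul_eq_mul]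
    refine mul_le_mul' le_rfl (add_le_add (mul_le_mul_right ?_ _) ?_)
    · rw [← lintegral_indicator_one m2, ← lintegral_add_left (meas_hh δ),
        ← lintegral_const_mul' _ _ ENNReal.ofReal_ne_top]
      refine lintegral_mono_ae (hc.mono fun p hp => le_trans (le_of_eq ?_) (half hδ hp.1 hp.2))
      have a := ft_sim two_pos H496.isLor_one Two.g0 0 ((2⁻¹ : ℝ) • p)
      rw [smul_smul, mul_inv_cancel₀ two_ne_zero, one_smul, Irn.sim_one, zero_add, one_smul] at a
      rw [Pi.mul_apply, show ev (pS 2 GF.one G) = fun z => Two.g0 (sim 2 GF.one 0 z) from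
        funext (pS_apply two_pos H496.isLor_one G), a, mul_left_comm, ← cn ((2⁻¹ : ℝ) • p) (1 / 256)]
      congr 3
      simp [mul_pow]
      norm_num
    · rw [← lintegral_indicator_one m1, ← lintegral_const_mul' _ _ ENNReal.ofReal_ne_top]
      refine lintegral_mono_ae (hc'.mono fun p hp => le_trans (le_of_eq ?_) (bnd hδ.le v hp.1 hp.2))
      rw [Pi.mul_apply, KDa.ev_dS, ft_dv ⟨G, rfl⟩, eG, mul_left_comm, ← cn p (mdot p v ^ 2)]
      congr 3
      simp [mul_pow]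
  have q0 : ∫⁻ p, hh 0 p ∂ρ ≠ ⊤ := ne_top_of_le_ne_top (ENNReal.add_ne_top.2
    ⟨(isCompact_closedBall _ _).measure_lt_top.ne, ENNReal.mul_ne_top (by simp) (ENNReal.mul_ne_top
      ENNReal.ofReal_ne_top (isCompact_closedBall _ _).measure_lt_top.ne)⟩) (lim key)
  obtain ⟨m, A, A0, hA⟩ := ft_decay M
  set J := (∫⁻ p, hh 0 p ∂ρ + ∫⁻ p, ENNReal.ofReal (((1 + ‖p‖) ^ M)⁻¹) ∂ρ).toReal with hJ
  refine ⟨m, A * Real.sqrt J, fun f => ?_⟩
  have s0 : 0 ≤ sn m f := apply_nonneg _ _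
  rw [hν, lintegral_withDensity_eq_lintegral_mul _ (mf f) (by fun_prop), mul_right_comm, mul_pow,
    Real.sq_sqrt ENNReal.toReal_nonneg, ENNReal.ofReal_mul (sq_nonneg _),
    ENNReal.ofReal_toReal (ENNReal.add_ne_top.2 ⟨q0, hM.ne⟩), ← lintegral_add_left (meas_hh 0),
    ← lintegral_const_mul' _ _ ENNReal.ofReal_ne_top]
  refine lintegral_mono_ae (hc.mono fun p hp => ?_)
  have a := hA f p
  have w1 : 1 ≤ (1 + ‖p‖) ^ M := one_le_pow₀ (by simp)
  have f0 := norm_nonneg (ft (ev f) p)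
  rw [Pi.mul_apply, Complex.norm_real, Real.norm_eq_abs, sq_abs]
  generalize ‖ft (ev f) p‖ = F at a f0
  have a1 : F ≤ A * sn m f := by nlinarith
  by_cases m1 : p o ≤ 1
  · refine mul_le_mul' (ENNReal.ofReal_le_ofReal (pow_le_pow_left₀ f0 a1 2)) (le_add_right ?_)
    rw [hh, indicator_of_mem (show p ∈ sh 0 from ⟨hp.1, m1⟩), Irn.wt]
  · refine le_trans ?_ (mul_le_mul_right le_add_self _)
    rw [← ENNReal.ofReal_mul (sq_nonneg _), ← ENNReal.ofReal_mul (sq_nonneg _)]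
    refine ENNReal.ofReal_le_ofReal ?_
    have i1 : (p o)⁻¹ ^ 2 ≤ 1 := pow_le_one₀ (inv_pos.2 hp.1).le
      (inv_le_one_of_one_le₀ (not_le.1 m1).le)
    rw [← div_eq_mul_inv _ (_ ^ M), le_div_iff₀ (by positivity)]
    calc F ^ 2 * (p o)⁻¹ ^ 2 * (1 + ‖p‖) ^ M = F * ((1 + ‖p‖) ^ M * F) * (p o)⁻¹ ^ 2 := by ring
      _ ≤ (A * sn m f) * (A * sn m f) * 1 :=
        mul_le_mul (mul_le_mul a1 a (by positivity) (by positivity)) i1 (by positivity)
          (by positivity)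
      _ = _ := by ring

end

end Vale.Agent.P352X.TPD
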