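import Vale.Agent.P352Y.T3D
import Vale.Agent.P352Z.P352X.R.GEN.A
import Vale.Agent.P352Z.P352X.R.RES.Fib
import Vale.Agent.P352Z.P352X.R.STRUCT
import Vale.Agent.P352Z.P352X.R.WK
import Vale.Agent.P352Z.P352X.TPD.Spec

open Vale.Agent.P352G

/-!
# P352X, block TPD: row T3P
-/

namespace Vale.Agent.P352X.TPD

variable {D : Type*} [NormedAddCommGroup D] [InnerProductSpace ℂ D] [GrD D]

theorem t3p_rowZ (c : CtxZ D) : B0Z c → T3PZ c := fun _ _ _ tp tm hc =>
  P352Y.exists_t c.hT tp tm fun x y h =>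
    (hc x y h).imp fun _ a => ⟨a.1, fun I J K f G G' _ _ => a.2 I J K f G G'⟩

end Vale.Agent.P352X.TPD
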