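import Vale.Agent.P352X.TPD.PHI
import Vale.Agent.P352Z.P352X.R.JC.A2
import Vale.Agent.P352Z.P352X.TPD.Ut

open Vale.Agent.P352G

/-!
# P352X, block TPD, row PHI: data for `u^2 η ⊗ n n`
-/

set_option linter.all false

open MeasureTheory Filter Topology
open scoped SchwartzMap ComplexConjugate ENNReal ContDiff

namespace Vale.Agent.P352X.TPD

open Vale.Agent.P352 Vale.Agent.P352.GF Vale.Agent.P352.BW Vale.Agent.P352.H246
open Vale.Agent.P352.H496 Vale.Agent.P352.H755 Vale.Agent.P352.H15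
open UniformSpace (Completion)
open Complex (I)

noncomputable section

namespace PhiZ

variable {D : Type*} [NormedAddCommGroup D] [InnerProductSpace ℂ D] [GrD D] {c : CtxZ D} {w : WW D}

/-- the highest weight datum -/
structure Top (c : CtxZ D) (w : WW D) (β : Fam D) : Prop where
  dat : DatZ c w 1 (h0 (sq va)) β
  dil : ∀ s : ℝ, 0 < s → s ^ 2 • gaZ c s GF.one β = β
  fix : ∀ L (l l' : ℝ), IsLor L → sim 1 L 0 va = l • va → sim 1 L 0 vb = l' • vb → l ≠ 0 →
    l' ≠ 0 → gaZ c 1 L β = l ^ 2 • β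

lemma ex_top (b : B0Z c) (lim : LIMZ c) (hw : SrcZ c w) : ∃ β, Top c w β := by
  have t := b.ten
  have hr : (0 : ℝ) < 2 ^ (-1 : ℝ) := by positivity
  have hs : (0 : ℝ) < 2 ^ (-16 : ℝ) := by positivity
  set r : ℝ := 2 ^ (-1 : ℝ) with er
  set s : ℝ := 2 ^ (-16 : ℝ) with es
  have hq : 0 < Real.sqrt (r * s) := Real.sqrt_pos.2 (mul_pos hr hs)
  obtain ⟨h1, h2, -⟩ := t.lsc r s hr hs
  have h3 : sim 1 (Lsc r s) 0 va = (r / Real.sqrt (r * s)) • va := by
    have := h2 va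
    rw [sim_s, show scp r s va = r • va from null_ext (by simp) (by simp) (by simp)] at this
    rw [div_eq_inv_mul, ← smul_smul, eq_inv_smul_iff₀ hq.ne', this]
  have h4 := _root_.Vale.Agent.P352X.TPD.Phi.pf_a t (s := Real.sqrt (r * s)) h1 h3 (div_pos hr hq).ne'
  rw [div_pow, Real.sq_sqrt (mul_pos hr hs).le,
    show r * s / (r ^ 2 / (r * s)) = s ^ 2 by field_simp] at h4
  obtain ⟨β, hβ, cov⟩ := lim w hw 1 _ r s _ (one_mul _) (t.h0s _).1
    (fun u => by rw [(t.h0s _).2.1, one_smul]) hr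
    (Real.rpow_lt_one_of_one_lt_of_neg one_lt_two (by norm_num)) hs
    (Real.rpow_lt_one_of_one_lt_of_neg one_lt_two (by norm_num)) h4 (sq_nonneg _) (by
      rw [er, es, ← Real.rpow_add two_pos, ← Real.rpow_mul zero_le_two, ← Real.rpow_natCast,
        ← Real.rpow_mul zero_le_two, ← Real.rpow_add two_pos]
      exact Real.rpow_lt_one_of_one_lt_of_neg one_lt_two (by norm_num))
  refine ⟨β, hβ, fun s' h => cov s' _ _ h (lor_one t) (fun z => by rw [sim_id, sim_id]) ?_,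
    fun L l l' hL e e' hl hl' => ?_⟩
  · simpa using _root_.Vale.Agent.P352X.TPD.Phi.pf_a t (s := s') (l := 1) (lor_one t) (by rw [sim_id, one_smul]) one_ne_zero
  · have := cov 1 L _ one_pos hL (_root_.Vale.Agent.P352X.TPD.Phi.comm hL e e' hl hl' r s) (_root_.Vale.Agent.P352X.TPD.Phi.pf_a t hL e hl)
    rw [one_pow, one_div, inv_smul_eq_iff₀ (pow_ne_zero 2 hl)] at this
    exact this

variable {β : Fam D}

lemma Top.ev (h : Top c w β) (η : EC) : EvT (β η) := (h.dat.tc η).ev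

lemma Top.rot (h : Top c w β) (b : B0Z c) (wl : WLZ c) (hw : SrcZ c w) (v : R2) :
    gaZ c 1 (Lg v) β = β := by
  have t := b.ten
  have P := b.bp w hw
  have hS := (t.h0s (sq va)).1
  obtain ⟨η⟩ := ec0 t
  have hg := fun v => (t.lg v).1
  have e : ∀ v, sim 1 (Lg v) 0 va = (1 : ℝ) • va := fun v => by
    rw [(t.lg v).2.1]
    exact null_ext (by simp) (by simp) (by simp)
  have d : DatZ c w 1 (h0 (sq va)) (gaZ c 1 (Lg v) β) := P.dact 1 1 _ _ _ one_pos (hg v) hS
    (by simpa [_root_.Vale.Agent.P352X.TPD.Phi.pf_a t (hg v) (e v) one_ne_zero] using h.dat)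
  obtain ⟨y, hy, ey⟩ := P.dhom 1 2 _ (P.dsub hS d h.dat) fun s hs => by
    rw [map_sub, smul_sub, h.dil s hs, ← (ga_dilZ b hs (hg v) β).2, (ga_dilZ b hs (hg v) β).1,
      ← map_smul, h.dil s hs]
  obtain ⟨z, z1, z2, z3, -⟩ := wl 1 2 y (one_mul _) hy
  have eb : ∀ τ, gaZ c 1 (Lb τ) β = Real.exp τ ^ 2 • β := fun τ =>
    h.fix _ _ (Real.exp (-τ)) (t.lb τ).1
      (by rw [(t.lb τ).2.1]; exact null_ext (by simp) (by simp) (by simp))
      (by rw [(t.lb τ).2.1]; exact null_ext (by simp) (by simp) (by simp))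
      (Real.exp_pos _).ne' (Real.exp_pos _).ne'
  have l := (wt_limZ b (s := Finset.Icc (-3) 3) (y := 0) (m := 2) (fun n => (z1 n).2) fun f => by
    have l0 : Tendsto (fun τ : ℝ => Lg (Real.exp τ • v)) atBot (𝓝 GF.one) := by
      have := (t.lg0.2.tendsto _).comp (Real.tendsto_exp_atBot.smul_const v)
      rwa [zero_smul, t.lg0.1] at this
    have l1 := (P.dcont 1 _ β ℝ atBot _ _ η f hS h.dat (fun τ => hg _) (lor_one t) l0).sub_const
      (β η f)
    rw [b.ba.gone, sub_self] at l1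
    refine l1.congr fun τ => ?_
    have : actZ c 1 (Lb τ) y = (Real.exp τ ^ 2 • (gaZ c 1 (Lg (Real.exp τ • v)) β - β)) η := by
      rw [← ey (η.pull 1 (Lb τ)), ← ga_applyZ, map_sub, ga_cmZ b (t.lb τ).1 (hg v) h.ev,
        (t.lb τ).2.2.2, ← ga_cmZ b (hg _) (t.lb τ).1 h.ev, eb, map_smul, smul_sub]
    rw [← z3, this, Pi.smul_apply, ContinuousLinearMap.smul_apply, smul_smul, ← Real.exp_nat_mul,
      ← Real.exp_add]
    simp).1
  have y0 : y = 0 := z3.trans (Finset.sum_eq_zero fun n hn => by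
    rcases lt_or_ge n 2 with k | k
    exacts [l n hn k, z2 n (by simpa using k.trans (le_abs_self n))])
  exact sub_eq_zero.1 (funext fun η => (ey η).trans y0)

lemma Top.stab (h : Top c w β) (b : B0Z c) (wl : WLZ c) (hw : SrcZ c w) {L : Ix → V} {l : ℝ}
    (hL : IsLor L) (e : sim 1 L 0 va = l • va) (hl : l ≠ 0) : gaZ c 1 L β = l ^ 2 • β := by
  have t := b.ten
  set q := sim 1 L 0 vb with hq
  have h1 : be q = l⁻¹ := by
    have := md_LL hL va vb
    rw [e, md_smul_l, md_ab, md_va] at this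
    exact eq_inv_of_mul_eq_one_right this
  have h2 : mdot q q = 0 := (md_LL hL vb vb).trans null_vb.1
  set v := l • tx q with hv
  have h3 : tx (gap (-v) q) = 0 := by
    rw [tx_gap, h1, hv, smul_neg, inv_smul_smul₀ hl, add_neg_cancel]
  have h4 : al (gap (-v) q) = 0 := by
    have := (md_gap q q (-v)).trans h2
    rw [mdot_null, h3, be_gap, h1, d2_zero, sub_zero, mul_comm, ← two_mul] at this
    simpa [hl] using this
  have k1 := (t.lcm _ _ (t.lg (-v)).1 hL).1
  have k2 := h.fix _ l l⁻¹ k1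
    (by rw [T.sim_cm, e, (t.lg _).2.1]; exact null_ext (by simp) (by simp) (by simp))
    (by rw [T.sim_cm, (t.lg _).2.1]
        exact null_ext (by simpa using h4) (by simpa using h1) (by simpa using h3))
    hl (inv_ne_zero hl)
  have k3 : T.cm (T.cm L (Lg (-v))) (Lg v) = L := T.mat_ext fun x => by
    rw [T.sim_cm, T.sim_cm, (t.lg _).2.1, (t.lg _).2.1, gap_gap, add_neg_cancel, gap_zero]
  rw [← k3, ← ga_cmZ b (t.lg v).1 k1 h.ev, k2, map_smul, h.rot b wl hw]

lemma Top.ray (h : Top c w β) (b : B0Z c) (wl : WLZ c) (hw : SrcZ c w) {L L' : Ix → V} {l : ℝ}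
    (hL : IsLor L) (hL' : IsLor L') (e : sim 1 L' 0 va = l • sim 1 L 0 va) (hl : l ≠ 0) :
    gaZ c 1 L' β = l ^ 2 • gaZ c 1 L β := by
  have k1 := (b.ten.lcm _ _ (isLor_linv hL) hL').1
  have k3 : T.cm (T.cm L' (linv L)) L = L' := T.mat_ext fun x => by
    rw [T.sim_cm, T.sim_cm, sim_linv hL]
  rw [← k3, ← ga_cmZ b hL k1 h.ev, h.stab b wl hw k1 (l := l)
    (by rw [T.sim_cm, e, simL_smul, linv_sim _ hL]) hl, map_smul]

end PhiZ

variable {D : Type*} [NormedAddCommGroup D] [InnerProductSpace ℂ D] [GrD D]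

/-- **row PHI** -/
theorem phi_rowZ (c : CtxZ D) (b : B0Z c) (lim : LIMZ c) (wl : WLZ c) : PHIZ c := by
  intro w hw
  have t := b.ten
  obtain ⟨β, h⟩ := PhiZ.ex_top b lim hw
  choose! M hM eM using fun n (hn : IsNull n) => Phi.ex_L t hn
  refine ⟨fun n => gaZ c 1 (M n) β, fun n hn => ?_, fun n s hn hs => ?_, fun s L n hs hL hn => ?_⟩
  · refine (b.bp w hw).dact 1 1 _ _ _ one_pos (hM n hn) (t.h0s _).1 ?_
    have := t.sq _ va (hM n hn)
    rw [eM n hn] at this
    rw [t.h0 _ _ _ (hM n hn), this, one_pow, one_smul]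
    exact h.dat
  · have hn' : IsNull (s • n) :=
      ⟨by rw [md_smul, md_smul_l, hn.1, mul_zero, mul_zero], mul_pos hs hn.2⟩
    exact h.ray b wl hw (hM n hn) (hM _ hn') (by rw [eM n hn, eM _ hn']) hs.ne'
  · have hn' := isNull_lor hL hn
    have k := (t.lcm _ _ hL (hM n hn)).1
    have := h.ray b wl hw (l := 1) k (hM _ hn') (by rw [eM _ hn', T.sim_cm, eM n hn, one_smul])
      one_ne_zero
    rw [this, one_pow, one_smul, b.ba.gmul _ _ _ _ _ hs one_pos hL (hM n hn) (.inl h.ev), mul_one,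
      (ga_dilZ b hs k β).1, ← map_smul, h.dil s hs]

end

end Vale.Agent.P352X.TPD
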