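import Vale.Agent.P352Y.W0
import Vale.Agent.P352Z.P352X.R.GEN.A
import Vale.Agent.P352Z.P352X.R.STRUCT
import Vale.Agent.P352Z.P352X.R.WK
import Vale.Agent.P352Z.P352X.TPD.Spec

open Vale.Agent.P352G

/-!
# P352X, rows TPD.PRE and TPD.SRC (helper17)
-/

set_option linter.all false

namespace Vale.Agent.P352X.TPD

open Vale.Agent.P352 Vale.Agent.P352.GF Vale.Agent.P352.BW
open UniformSpace (Completion)

variable {D : Type*} [NormedAddCommGroup D] [InnerProductSpace ℂ D] [GrD D]

theorem pre_rowZ (c : CtxZ D) : B0Z c → PREZ c := fun b => by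
  obtain ⟨W, hW⟩ := P352Y.exists_wker c.hT
  obtain ⟨w, hw⟩ := P352Y.exists_w0 c.hT hW
  have g := c.hN.g0
  obtain ⟨E, hE⟩ : ∃ E : Completion D →L[ℂ] Completion D,
      ∀ z, E z = ((2⁻¹ : ℝ) : ℂ) • (z + Gm D z) := ⟨((2⁻¹ : ℝ) : ℂ) • (1 + Gm D), fun z => rfl⟩
  have e1 : ∀ z, Gm D z = z → E z = z := fun z hz => by
    rw [hE, hz]
    push_cast
    module
  refine ⟨fun I J => E ∘L w I J, fun I J f k F e hL => ?_,
    fun I J F G e => congrArg E (hw.swap I J F G e), fun I J => by rw [← hw.ind],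
    fun s L a I J F G hs hL hF e => ?_, fun n J G hG => ?_,
    fun a b' y I J G G' _ _ _ hG _ hs e => ?_, fun I J F => ?_⟩
  · refine (congrArg E (hw.fac hW I J f k F e hL)).trans (e1 _ ?_)
    rw [b.grp.gext, ← b.grp.gT _ _ _ _ ⟨f, rfl⟩, ← b.grp.gT _ _ _ _ ⟨k, rfl⟩, c.hN.gvac]
  · refine (congrArg E (hw.cov hW a I J F G hs hL e hF)).trans ?_
    have eU : ∀ z, E (Ug c.Q s L a z) = Ug c.Q s L a (E z) := fun z => by
      simp only [hE, map_add, map_smul, c.hN.toRepZ.gUz]
    simp only [map_sum, map_smul, ContinuousLinearMap.comp_apply, eU]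
  · simpa only [dv1, map_sum, map_zero, ContinuousLinearMap.comp_apply] using
      congrArg E (hw.cons hW c.hT n J hG)
  · have p := hw.loc hW (ThZ c)
      (fun m n k l _ _ ⟨f, hf⟩ ⟨g, hg⟩ => hf ▸ hg ▸ b.ba.th_two (m, n) (k, l) f g)
      (Ap.open_wdg a b' y) (fun m n f => Grp.afs_TZ c.hN c.hT m n) I J hG hs e
    have q := (p.add (p.cov g.uni b.grp.gv fun X hX => by
      rw [g.gs]
      exact b.grp.gN _ X hX)).csmul 2⁻¹
    simpa only [ContinuousLinearMap.comp_apply, hE, map_add, map_smulₛₗ, Complex.conj_ofReal,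
      b.ba.th_gam] using q
  · simp only [ContinuousLinearMap.comp_apply, hE, map_add, map_smul, g.gz, add_comm]

theorem src_rowZ (c : CtxZ D) : B0Z c → SRCZ c := fun b w h => by
  have s : ∀ I J F, w I J F = w J I (Str.sw F) := fun I J F => h.swap I J F _ fun _ _ => rfl
  refine ⟨fun I J F => (b.ba.pp _).1, fun I J => by rw [← h.ind], fun I J => ?_,
    fun s L a I J F G hs hL hF e => ?_, fun n J G hG => ?_, fun I n G hG => ?_,
    fun a b' y I J G G' ha hb hab hG k1 k2 e => ?_,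
    fun I J F => (b.ba.pp_gam _).trans (congrArg (PpZ c) (h.ev I J F))⟩
  · ext F
    simp only [ContinuousLinearMap.comp_apply]
    rw [s I J, s I J.swap, ← h.ind]
  · simp only [ContinuousLinearMap.comp_apply, h.cov s L a I J F G hs hL hF e, map_sum, map_smul,
      (b.ba.pp _).2.2.2.2]
  · simpa only [dv1, map_sum, map_zero, ContinuousLinearMap.comp_apply] using
      congrArg (PpZ c) (h.c1 n J G hG)
  · have := congrArg (PpZ c) (h.c1 n I (Str.sw G) (P352Y.OffD.sw hG))
    simp only [dv1, map_sum, map_zero] at this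
    refine (Finset.sum_congr rfl fun m _ => congrArg (PpZ c) ((s _ _ _).trans
      (congrArg _ (SchwartzMap.ext fun z => ?_)))).trans this
    exact (DFunLike.congr_fun ((ContinuousLinearEquiv.prodComm ℝ V V).comp_right_fderiv
      (f := G) (x := z)) (bas m 1, 0)).symm
  · simpa only [ContinuousLinearMap.comp_apply, (b.ba.pp _).2.1] using
      b.ba.pp_pr _ _ _ (h.loc a b' y I J G G' ha hb hab hG k1 k2 e)

end Vale.Agent.P352X.TPD
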