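import Vale.Agent.P352X.TPD.SC
import Vale.Agent.P352Z.P352X.TPD.Spec

open Vale.Agent.P352G

/-!
# P352X, block TPD: row SC
-/

set_option linter.all false

open MeasureTheory Filter Topology
open scoped SchwartzMap ComplexConjugate ENNReal ContDiff

namespace Vale.Agent.P352X.TPD

open Vale.Agent.P352 Vale.Agent.P352.GF Vale.Agent.P352.BW Vale.Agent.P352.H246
open Vale.Agent.P352.H496 Vale.Agent.P352.H755 Vale.Agent.P352.H15
open UniformSpace (Completion)

noncomputable section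

namespace Sc

variable {L : Ix → V}

variable {D : Type*} [NormedAddCommGroup D] [InnerProductSpace ℂ D] [GrD D] {c : CtxZ D} {w : WW D}

lemma ga_ddZ (b : BAZ c) {s : ℝ} (hs : 0 < s) (hL : IsLor L) (r : Ix) (x : Fam D) :
    gaZ c s L (dd r x) = s • ∑ t, L r t • dd t (gaZ c s L x) := by
  funext η
  rw [ga_applyZ, Pi.smul_apply]
  refine (b.der s L _ _ hs hL).trans ?_
  rw [show sim 1 L 0 (bas r 1) = L r from funext fun n => by simp [sim, bas], der_sum,
    Finset.sum_apply]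
  rfl

lemma tc_sumZ (b : BAZ c) {x : Ix → TT D} (h : ∀ r, TCZ c (x r)) : TCZ c (∑ r, x r) :=
  Finset.sum_induction _ _ b.tc_add b.tc0 fun r _ => h r

lemma loc_sumZ (b : BAZ c) {σ K} {x : Ix → TT D} (h : ∀ r, LocZ c σ K (x r)) : LocZ c σ K (∑ r, x r) :=
  Finset.sum_induction _ _ (b.loc_add σ K) (b.loc0 σ K) fun r _ => h r

end Sc

open Sc in
theorem sc_rowZ {D : Type*} [NormedAddCommGroup D] [InnerProductSpace ℂ D] [GrD D] (c : CtxZ D) :
    B0Z c → A1Z c → TLZ c → DIVZ c → SCZ c := fun b a1 tl dv w S => by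
  obtain ⟨B1, h1, c1⟩ := a1 w S 1 one_lt_two
  obtain ⟨B0, h0, c0⟩ := tl w S
  have T := b.ten
  have P := b.bp w S
  have G := fun v => P.g3 (-1) (Y v) (by norm_num) (Y_smooth v) (Y_neg v)
  have ok := fun (η η' : EC) k => (T.okc _ _ (T.ec η η').1 (T.ec η η').2 (T.h0s k).1).1
  let p : V →ₗ[ℝ] Fam D :=
    { toFun := fun v η => psi w (b3 η.1 (Y v))
      map_add' := fun v v' => funext fun η => by
        rw [map_add]; exact ((G v).2.2.2 _ 0 η (Y_smooth v')).1
      map_smul' := fun a v => funext fun η => by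
        rw [map_smul]; exact ((G v).2.2.2 _ a η (Y_smooth v)).2 }
  let n : V →ₗ[ℝ] Fam D :=
    { toFun := fun v => (4 : ℝ) • (p v + B1 (hh v) + (-1 : ℝ) • ∑ r, dd r (B0 (kk r v)))
      map_add' := fun v v' => by
        simp only [map_add, Finset.sum_add_distrib]
        module
      map_smul' := fun a v => by
        simp only [map_smul, ← Finset.smul_sum, RingHom.id_apply]
        module }
  have hn : ∀ v, n v = (4 : ℝ) • (p v + B1 (hh v) + (-1 : ℝ) • ∑ r, dd r (B0 (kk r v))) :=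
    fun v => rfl
  have hn' : ∀ v η, n v η = (4 : ℝ) • (psi w (b3 η.1 (Y v)) + B1 (hh v) η +
      (-1 : ℝ) • ∑ r, B0 (kk r v) η ∘L KDa.dS (bas r 1)) := fun v η => by
    rw [hn]
    simp only [Pi.smul_apply, Pi.add_apply, Finset.sum_apply]
    rfl
  rw [pow_one] at h1
  refine (dv n (fun η η' => psi w (cs (η.1 - η'.1) (TPD.h0 et)))
    (fun v η => hn' v η ▸ b.ba.tc_smul _ _ (b.ba.tc_add _ _ (b.ba.tc_add _ _ ((G v).1 η).1
      ((h1 _).tc η)) (b.ba.tc_smul _ _ (tc_sumZ b.ba fun r => b.ba.tc_der _ _ ((h0 _).tc η)))))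
    (fun v η => hn' v η ▸ b.ba.loc_smul _ _ _ _ (b.ba.loc_add _ _ _ _ (b.ba.loc_add _ _ _ _
      ((G v).1 η).2 ((h1 _).loc η)) (b.ba.loc_smul _ _ _ _ (loc_sumZ b.ba fun r =>
        b.ba.loc_der _ _ _ _ ((h0 _).loc η)))))
    (fun η η' => P.tc _ (ok η η' et)) (fun v η η' => ?_) fun s L v hs hL => ?_).imp
    fun m h => ⟨⟨fun η => (h.1 η).1, fun η => (h.1 η).2, h.2.1⟩, h.2.2⟩
  · have e1 := (G v).2.1 η η'
    have e2 : ∀ r, psi w (cs (η.1 - η'.1) (i3 r (Y v))) = B0 (kk r v) η - B0 (kk r v) η' +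
        (v r / 4) • psi w (cs (η.1 - η'.1) (TPD.h0 et)) := fun r => by
      have o1 := (T.okc _ _ (T.ec η η').1 (T.ec η η').2 ((T.h0s et).1.const_smul (v r / 4))).1
      have o2 : (v r / 4) • cs (η.1 - η'.1) (TPD.h0 et) =
          cs (η.1 - η'.1) fun u => (v r / 4) • TPD.h0 et u := funext fun u => smul_comm (v r / 4) _ _
      have o3 := (T.okc _ _ (T.ec η η').1 (T.ec η η').2 ((T.h0s (TPD.tl (kk r v))).1.add
        ((T.h0s et).1.const_smul (v r / 4)))).1
      rw [i3_Y, (h0 _).coc, ← P.smul _ _ (ok η η' et), ← P.add _ _ (ok η η' _) (o2 ▸ o1)]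
      refine P.sy _ _ (ok η η' _) ?_ (trc_kk r v ▸ sy_h0 _ _)
      convert o3 using 1
      rw [o2]
      exact funext fun u => (smul_add _ _ _).symm
    rw [d3_Y, ← (h1 _).coc] at e1
    simp only [e2, ContinuousLinearMap.add_comp, ContinuousLinearMap.sub_comp,
      ContinuousLinearMap.smul_comp, Finset.sum_add_distrib, Finset.sum_sub_distrib,
      div_eq_inv_mul, ← smul_smul, ← Finset.smul_sum, ← der_sum] at e1
    rw [hn', hn']
    linear_combination (norm := module) (4 : ℝ) • e1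
  · have e1 := (G (sim 1 L 0 v)).2.2.1 s L hs hL
    have e2 := c1 s L (hh (sim 1 L 0 v)) hs hL
    have e3 := fun t => c0 s L (kk t (sim 1 L 0 v)) hs hL
    rw [pf_Y T hL, ← map_smul] at e1
    have e4 : s • gaZ c s L (p v) = p (sim 1 L 0 v) := smul_right_injective _ hs.ne' (by
      simp only [smul_smul, ← pow_two]
      rw [← map_smul, ← map_smul]
      exact e1)
    rw [pb_hh T hL, pow_one] at e2
    simp only [pb_kk T hL, map_sum, map_smul] at e3
    rw [hn, hn, ← e4, ← e2]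
    simp only [← e3, map_smul, map_add, map_sum, ga_ddZ b.ba hs hL, ← Finset.smul_sum]
    rw [Finset.sum_comm]
    module

end

end Vale.Agent.P352X.TPD
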