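import Vale.Agent.P352X.TPD.TL
import Vale.Agent.P352Z.P352X.TPD.Spec

open Vale.Agent.P352G

/-! # P352X, block TPD: row TL -/

set_option linter.all false

open Filter Topology Finset
open scoped ContDiff

namespace Vale.Agent.P352X.TPD

open Vale.Agent.P352.GF Vale.Agent.P352.H496 Vale.Agent.P352.H15
open UniformSpace (Completion)

noncomputable section

variable {D : Type*} [NormedAddCommGroup D] [InnerProductSpace ℂ D] [GrD D] {c : CtxZ D}

namespace Tl

variable {w : WW D} {Φ : V → Fam D}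

lemma quadZ (b : B0Z c) (hp : POLYN) (h5 : FIVEZ c) (hw : SrcZ c w) (h : PhiZ c w Φ)
    (ξ : Completion D) (η : EC) (f : Sch) : ∃ q : Ix → Ix → ℂ, ∀ n, IsNull n →
      me ξ η f (Φ n) = ∑ m, ∑ k, q m k * (sq n ![m, k] : ℝ) := by
  have nvb : IsNull vb := nb0 ▸ null_nb 0
  have e1 : ∀ x, Φ (nb x) = gaZ c 1 (Lg x) (Φ vb) := fun x => by
    have := h.cov 1 (Lg x) vb one_pos (b.ten.lg x).1 nvb
    rw [(b.ten.lg x).2.1, gap_vb, one_pow, one_smul] at this
    exact this.symm
  have e2 : ∀ x, Φ (na x) = gaZ c 1 sw (Φ (nb (rf x))) := fun x => by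
    have := h.cov 1 sw _ one_pos b.ten.sw.1 (null_nb (rf x))
    rw [sw_nb b.ten, one_pow, one_smul] at this
    exact this.symm
  have c1 : ∀ η f, Continuous fun x => Φ (nb x) η f := fun η f =>
    continuous_iff_continuousAt.2 fun x => by
      simp only [e1]
      exact (b.bp w hw).dcont 1 _ _ R2 (𝓝 x) Lg (Lg x) η f (b.ten.h0s _).1 (h.dat vb nvb)
        (fun y => (b.ten.lg y).1) (b.ten.lg x).1 (b.ten.lg0.2.tendsto x)
  refine hp (fun n => me ξ η f (Φ n)) (fun n t hn ht => ?_) (continuous_const.inner (c1 η f)) ?_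
    (fun x y => ?_) fun x y => ?_
  · simp only [h.hom n t hn ht, map_smul, Complex.real_smul]
  · simp only [e2]
    exact continuous_const.inner ((Ug c.Q 1 sw 0).continuous.comp
      ((c1 _ _).comp rf.continuous_of_finiteDimensional))
  · rw [map_df5 (me ξ η f) fun x => Φ (nb x), h5 w Φ hw h, map_zero]
  · have := h5 w Φ hw h (rf x) (rf y)
    simp only [e2]
    rw [map_df5 (me ξ η f) fun x => gaZ c 1 sw (Φ (nb (rf x))),
      map_df5 (gaZ c 1 sw) fun x => Φ (nb (rf x))]
    simp only [df5, map_add, map_smul] at this ⊢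
    rw [this, map_zero, map_zero]

lemma relZ (b : B0Z c) (hp : POLYN) (h5 : FIVEZ c) (hw : SrcZ c w) (h : PhiZ c w Φ) {N : ℕ}
    {n n' : Fin N → V} {a a' : Fin N → ℝ} (hn : ∀ i, IsNull (n i)) (hn' : ∀ i, IsNull (n' i))
    (e : ∑ i, a i • sq (n i) = ∑ i, a' i • sq (n' i)) :
    ∑ i, a i • Φ (n i) = ∑ i, a' i • Φ (n' i) := by
  refine funext fun η => ContinuousLinearMap.ext fun f => ext_inner_left ℂ fun ξ => ?_
  obtain ⟨q, hq⟩ := quadZ b hp h5 hw h ξ η f
  have k : ∀ (n : Fin N → V) (a : Fin N → ℝ), (∀ i, IsNull (n i)) →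
      me ξ η f (∑ i, a i • Φ (n i)) =
        ∑ m, ∑ k, q m k * ((∑ i, a i • sq (n i)) ![m, k] : ℝ) := fun n a hn => by
    simp only [map_sum, map_smul, hq _ (hn _), Complex.real_smul, Finset.sum_apply, Pi.smul_apply,
      smul_eq_mul, Complex.ofReal_sum, Complex.ofReal_mul, mul_sum]
    rw [sum_comm]
    refine sum_congr rfl fun m _ => ?_
    rw [sum_comm]
    exact sum_congr rfl fun k _ => sum_congr rfl fun i _ => by ring
  exact (k n a hn).trans (e ▸ (k n' a' hn').symm)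

lemma datZ (b : B0Z c) (hw : SrcZ c w) (h : PhiZ c w Φ) {ι : Type} (s : Finset ι) {n : ι → V}
    (a : ι → ℝ) (hn : ∀ i, IsNull (n i)) :
    DatZ c w 1 (h0 (∑ i ∈ s, a i • sq (n i))) (∑ i ∈ s, a i • Φ (n i)) := by
  classical
  induction s using Finset.induction_on with
  | empty =>
    have : h0 0 = 0 := by ext u ν; simp [h0]
    simpa only [sum_empty, this] using (b.bp w hw).dzero 1
  | insert i s hi ih =>
    rw [sum_insert hi, sum_insert hi, ((b.ten.h0s _).2.2 _ 0).1]
    refine (b.bp w hw).dadd _ _ _ _ _ (b.ten.h0s _).1 (b.ten.h0s _).1 ?_ ih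
    rw [((b.ten.h0s _).2.2 0 _).2]
    exact (b.bp w hw).dsmul _ _ _ _ (b.ten.h0s _).1 (h.dat _ (hn i))

end Tl

open Tl in
/-- row TL -/
theorem tl_rowZ (c : CtxZ D) : B0Z c → POLYN → NODES → PHIZ c → FIVEZ c → TLZ c := by
  intro b hp ⟨N, n, l, hn, hl⟩ hΦ h5 w hw
  obtain ⟨Φ, h⟩ := hΦ w hw
  refine ⟨∑ i, (l i).smulRight (Φ (n i)), fun k => ?_, fun s L k hs hL => ?_⟩
  · simpa only [hl, LinearMap.sum_apply, LinearMap.smulRight_apply] using
      datZ b hw h univ (fun i => l i k) hn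
  · simp only [LinearMap.sum_apply, LinearMap.smulRight_apply, map_sum, map_smul, smul_sum,
      smul_comm (s ^ 2) (l _ _), h.cov s L _ hs hL (hn _)]
    refine relZ b hp h5 hw h (fun i => isNull_lor hL (hn i)) hn ?_
    obtain ⟨L', -, -, h2⟩ := b.ten.inv L hL
    have inj : Function.Injective (pb (ι := Fin 2) L) :=
      Function.LeftInverse.injective (g := pb L') fun x => by rw [b.ten.mul, h2, b.ten.one]
    refine inj ?_
    simp only [map_sum, map_smul, b.ten.sq L _ hL]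
    rw [hl, (b.ten.tl L k hL).2, ← hl, map_sum]
    simp only [map_smul]

end

end Vale.Agent.P352X.TPD
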