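import Vale.Agent.P352X.TPD.WL2
import Vale.Agent.P352Z.P352X.TPD.Spec
import Vale.Agent.P352Z.P352Y.WL

open Vale.Agent.P352G

/-!
# P352X, block TPD: row WL
-/

noncomputable section

open Complex Finset

namespace Vale.Agent.P352X.TPD

open Vale.Agent.P352 Vale.Agent.P352.GF Vale.Agent.P352.BW Vale.Agent.P352Y

variable {D : Type*} [NormedAddCommGroup D] [InnerProductSpace ℂ D] [GrD D] {c : CtxZ D}

namespace Wl2

lemma homZ {σ : ℝ} {k d : ℕ} {y : TT D} (e : k + d = 4) (h : HomZ c σ k y) : Wl.HomZ c d y where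
  tr a f := (h.tc.tra a f).symm
  sc s f g hs hg := by
    have := DFunLike.congr_fun (h.hom s hs) f
    rw [_root_.smul_apply, act_applyZ, show pS s GF.one f = g from SchwartzMap.ext
      fun z => by rw [pS_apply hs H496.isLor_one, Wl.sim_dil, hg]] at this
    rw [← this, Complex.coe_smul, show (4 - d : ℝ) = k by rw [sub_eq_iff_eq_add]; exact_mod_cast e.symm,
      Real.rpow_natCast]
  perp := h.tc.perp

lemma lcZ (t : TEN) {σ : ℝ} {y : TT D} (h : LocZ c σ ∅ y) : Wl.LcZ c y (σ • actZ c 1 r1 y) :=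
  fun g g' h1 h2 e => by
    have := h va vb 0 g null_va null_vb (md_ab ▸ one_pos) h1 h2 (by simp)
    rwa [_root_.smul_apply, act_applyZ, show pS 1 r1 g' = ng g from SchwartzMap.ext
      fun z => by rw [pS_apply one_pos t.r1.1, t.r1.2, e, ng_apply]; congr 1; ext m; simp [jr_apply, ← mul_assoc, ss],
      ← Complex.coe_smul, c.J.map_smulₛₗ, conj_ofReal, Complex.coe_smul]

lemma lbZ (t : TEN) (y : TT D) (s : ℝ) (f : Sch) :
    actZ c 1 (Lb s) y f = Bo c.Q s (y (Wl.bS s f)) := by
  rw [act_applyZ, Bo, Usc, Wl.ee, Real.sqrt_one, show pS 1 (Lb s) f = Wl.bS s f from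
    SchwartzMap.ext fun z => by rw [pS_apply one_pos (t.lb s).1, (t.lb s).2.1, Wl.bS_apply]]
  rfl

end Wl2

open Wl2 in
/-- **row WL** -/
theorem wl_rowZ (c : CtxZ D) (b : B0Z c) (kl : KILLZ c) : WLZ c := fun σ k y hσ h => by
  have B := b.ba
  have t := b.ten
  rcases le_or_gt k 4 with hk | hk
  swap
  · have : y = 0 := by
      refine kl σ y (1 / 2) (1 / 2) (2 ^ k) h.tc h.loc (by norm_num) (by norm_num) (by norm_num)
        (by norm_num) ?_ ?_
      · rw [(t.lsc _ _ one_half_pos one_half_pos).2.2, Real.sqrt_mul_self one_half_pos.le]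
        conv_rhs => rw [← h.hom _ one_half_pos, smul_smul, ← mul_pow]
        norm_num
      · calc _ ≤ (1 / 2 * (1 / 2) : ℝ) ^ (-2 : ℝ) :=
              Real.rpow_le_rpow_of_exponent_ge (by norm_num) (by norm_num) (by norm_num)
          _ < 2 ^ 5 := by norm_num
          _ ≤ _ := pow_le_pow_right₀ one_le_two hk
    subst this
    exact ⟨0, fun n => ⟨h, fun s => by simp⟩, fun _ _ => rfl, by simp, by simp⟩
  obtain ⟨d, e⟩ := Nat.exists_eq_add_of_le hk
  have hd : d ≤ 4 := by omega
  have h' := B.hom_smul σ k σ _ (B.hom_act σ k r1 y t.r1.1 h)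
  have l' := lcZ t h'.loc
  rw [map_smul, B.mul _ _ _ _ _ one_pos one_pos t.r1.1 t.r1.1 (.inl h.tc.ev), Wl2.rr, one_mul,
    B.one, smul_smul, hσ, one_smul] at l'
  choose a a0 ha using Wl.wlZ (homZ e.symm h) (homZ e.symm h') (lcZ t h.loc) l'
  obtain ⟨M, q, hq⟩ := b.exp.lag (Icc (-4) 4)
  have key : ∀ (n : ℤ) (s : ℝ) f, |n| < d → (∑ i ∈ range M, q n i • actZ c 1 (Lb (s + i)) y) f =
      Real.exp (n * s) • a f (n + d).toNat := fun n s f hn => by
    have hn' := abs_lt.1 hn
    simp only [FunLike.coe_sum, Finset.sum_apply, _root_.smul_apply,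
      lbZ t, (ha f _).1, smul_sum, ← Complex.coe_smul, smul_smul]
    rw [sum_comm]
    simp only [← sum_smul]
    have u : ∀ j ∈ range (2 * d), ∑ i ∈ range M, q n i * cexp ((j - d) * (s + i : ℝ)) =
        if (j - d : ℤ) = n then cexp (n * s) else 0 := fun j hj => by
      have := congrArg (fun x : ℝ => cexp ((j - d) * s) * x)
        (hq n (mem_Icc.2 (by omega)) (j - d) (mem_Icc.2 (by have := mem_range.1 hj; omega)))
      push_cast [mul_sum, apply_ite ofReal] at this ⊢
      simp only [mul_add, Complex.exp_add, mul_left_comm (q n _ : ℂ), this]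
      split_ifs with k
      · rw [← k]
        simp
      · simp
    rw [sum_eq_single_of_mem (n + d).toNat (mem_range.2 (by omega)) fun j hj k => by
      rw [u j hj, if_neg (by omega), zero_smul], u _ (mem_range.2 (by omega)), if_pos (by omega)]
    push_cast
    rfl
  set z : ℤ → TT D := fun n => if |n| < d then ∑ i ∈ range M, q n i • actZ c 1 (Lb i) y else 0
  have zf : ∀ n f, z n f = if |n| < d then a f (n + d).toNat else 0 := fun n f => by
    simp only [z]
    split_ifs with hn
    · simpa using key n 0 f hn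
    · rfl
  refine ⟨z, fun n => ⟨?_, fun s => ?_⟩, fun n hn => if_neg (by omega), ?_, ?_⟩
  · simp only [z]
    split_ifs
    · exact sum_induction _ _ (B.hom_add σ k) (B.hom0 σ k) fun i _ =>
        B.hom_smul σ k _ _ (B.hom_act σ k _ y (t.lb _).1 h)
    · exact B.hom0 σ k
  · ext f
    rw [_root_.smul_apply, zf]
    simp only [z]
    split_ifs with hn
    · simp only [map_sum, map_smul, B.mul _ _ _ _ _ one_pos one_pos (t.lb _).1 (t.lb _).1 (.inl h.tc.ev),
        (t.lb _).2.2.1, one_mul, key n s f hn]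
    · simp
  · ext f
    have := resum hd (a0 f) 1
    simp only [Pi.one_apply, one_smul, ← zf] at this
    simpa [Wl.bo_zeroZ, this] using (ha f 0).1
  · ext f
    have := resum hd (a0 f) fun n => (-1) ^ n
    simp only [← zf] at this
    have u := (ha f 0).2
    rw [Wl.bo_zeroZ] at u
    rw [u]
    simp only [FunLike.coe_sum, Finset.sum_apply, _root_.smul_apply, ← Complex.coe_smul]
    push_cast
    refine Eq.trans (sum_congr rfl fun j _ => ?_) this.symm
    rw [zpow_sub₀ (by norm_num), zpow_natCast, zpow_natCast, pow_add, div_eq_mul_inv, ← inv_pow]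
    simp

end Vale.Agent.P352X.TPD

end
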