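import Vale.Agent.P352X.TPD.Wire
import Vale.Agent.P352Z.P352X.TPD.Ba1
import Vale.Agent.P352Z.P352X.TPD.Ba2
import Vale.Agent.P352Z.P352X.TPD.Bp2
import Vale.Agent.P352Z.P352X.TPD.CMP
import Vale.Agent.P352Z.P352X.TPD.CRL
import Vale.Agent.P352Z.P352X.TPD.CVX
import Vale.Agent.P352Z.P352X.TPD.DIV
import Vale.Agent.P352Z.P352X.TPD.DL0
import Vale.Agent.P352Z.P352X.TPD.EU
import Vale.Agent.P352Z.P352X.TPD.FIN
import Vale.Agent.P352Z.P352X.TPD.FIVE
import Vale.Agent.P352Z.P352X.TPD.HMU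
import Vale.Agent.P352Z.P352X.TPD.IRG
import Vale.Agent.P352Z.P352X.TPD.IRN
import Vale.Agent.P352Z.P352X.TPD.IRQ
import Vale.Agent.P352Z.P352X.TPD.LIM
import Vale.Agent.P352Z.P352X.TPD.PHI
import Vale.Agent.P352Z.P352X.TPD.POT
import Vale.Agent.P352Z.P352X.TPD.PRE
import Vale.Agent.P352Z.P352X.TPD.RHO
import Vale.Agent.P352Z.P352X.TPD.SC
import Vale.Agent.P352Z.P352X.TPD.TL
import Vale.Agent.P352Z.P352X.TPD.WL2

open Vale.Agent.P352G

/-!
# P352X, block TPD: the wiring of the rows for the products of two components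
-/

set_option linter.all false

namespace Vale.Agent.P352X.TPD

variable {D : Type*} [NormedAddCommGroup D] [InnerProductSpace ℂ D] [GrD D]

theorem b0_ofZ (c : CtxZ D) (t : T3Z c) : B0Z c :=
  have b1 := ba1_rowZ c t ten_thm
  have ba := BAZ.of b1 (ba2_rowZ c t ten_thm b1)
  ⟨t, ten_thm, exp_row, ba, bp_rowZ c t ten_thm ba⟩

/-- The time ordered and the anti-time ordered products of two components exist. -/
theorem two_ofZ (c : CtxZ D) (b : B0Z c) :
    ∃ wp wm, TP2 c.Q c.T true wp ∧ TP2 c.Q c.T false wm ∧ CmpZ c wp wm ∧ EvW wp ∧ EvW wm := by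
  have rho := rho_rowZ c b
  have ani := ani_rowZ c b rho (irq_rowZ c b) (irg_rowZ c b)
  have lim := lim_rowZ c b ani
  have wl := wl_rowZ c b (kill_rowZ c b ani)
  have a3 := a3_rowZ c b (span_row b.ten) lim wl (eu_rowZ c b)
  have a1 := a1_rowZ c b (eq1_row b.ten)
  have tl := tl_rowZ c b polyn_row nodes_row (phi_rowZ c b lim wl) (five_rowZ c b wl)
  have div := div_rowZ c b (irn_rowZ c b rho)
    (pot_rowZ c b (mul_rowZ c b) (hmu_rowZ c b) (dl0_rowZ c b)) (crl_rowZ c b (cvx_rowZ c b))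
  have a2 := a2_rowZ c b (eq2_row b.ten) a3 tl (sc_rowZ c b a1 tl div)
  obtain ⟨w, hw⟩ := pre_rowZ c b
  have hs := src_rowZ c b w hw
  obtain ⟨wp, tp, hl, ep⟩ := fin_rowZ c b (src_rowZ c b) w hw fun k => by
    rcases lt_trichotomy k 2 with h | rfl | h
    exacts [a1 _ hs k h, a2 _ hs, a3 _ hs k h]
  obtain ⟨wm, tm, hc, em⟩ := cmp_rowZ c b wp tp hl ep
  exact ⟨wp, wm, tp, tm, hc, ep, em⟩

end Vale.Agent.P352X.TPD
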