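import Vale.Agent.P352Z.P352X.Main
import Vale.Agent.P352Z.P352X.TPD.T3P
import Vale.Agent.P352Z.P352X.TPD.Wire

open Vale.Agent.P352G

/-!
# P352X, block TPD: the time ordered products exist
-/

set_option linter.all false

namespace Vale.Agent.P352X

variable {D : Type*} [NormedAddCommGroup D] [InnerProductSpace ℂ D] [GrD D]

/-- **The time ordered products of two and three components of the stress tensor exist.** -/
theorem tp_thmZ' (c : CtxZ D) :
    ∃ wp wm t, TP c.Q c.T wp wm t ∧ TPD.EvW wp ∧ TPD.EvW wm := by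
  have b := TPD.b0_ofZ c (t3_thmZ c)
  obtain ⟨wp, wm, tp, tm, hc, ep, em⟩ := TPD.two_ofZ c b
  obtain ⟨t, ht⟩ := TPD.t3p_rowZ c b wp wm tp tm hc
  exact ⟨wp, wm, t, ht, ep, em⟩

theorem tp_thmZ (c : CtxZ D) : ∃ wp wm t, TP c.Q c.T wp wm t := by
  obtain ⟨wp, wm, t, h, -⟩ := tp_thmZ' c
  exact ⟨wp, wm, t, h⟩

end Vale.Agent.P352X
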